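import Crest.Agent.N255.Md.Sub
import Crest.Agent.N255.Nv.Ctg

/-!
# Row 255 (helper12): periods as sums over ordered tuples, cochains on tuples
-/

set_option autoImplicit false

noncomputable section

namespace Crest.Agent.N255.Md

open Nv

variable {S K : Type} {Γ : SimpleGraph S} {A : Type} [AddCommGroup A]

section per
variable [DecidableEq S] [LinearOrder K] {col : S → K} {T : Finset S} {z : Finset S → ℤ}

theorem sum_ite_sub {t : Finset S} (h : t ∈ T.powerset) (f : S → A) :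
    ∑ a ∈ t, f a = ∑ a ∈ T, if a ∈ t then f a else 0 := by
  rw [Finset.sum_ite_mem, Finset.inter_eq_right.2 (Finset.mem_powerset.1 h)]

theorem pA_s1 (hz : ∀ t, z t ≠ 0 → t.card = 2) (φ : S → S → A) : pA z T (s1 col φ) =
    ∑ a ∈ T, ∑ b ∈ T, if col a < col b then z {a, b} • φ a b else 0 := by
  have e : ∀ t ∈ T.powerset, z t • s1 col φ t = ∑ a ∈ T, ∑ b ∈ T,
      if col a < col b ∧ t = {a, b} then z t • φ a b else 0 := fun t ht => by
    by_cases q : z t = 0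
    · simp [q]
    rw [s1, sum_ite_sub ht, Finset.smul_sum]
    refine Finset.sum_congr rfl fun a _ => ?_
    rw [sum_ite_sub ht, Finset.ite_sum_zero, Finset.smul_sum]
    refine Finset.sum_congr rfl fun b _ => ?_
    by_cases l : col a < col b
    · have : a ∈ t ∧ b ∈ t ↔ t = {a, b} := ⟨fun k => (Finset.eq_of_subset_of_card_le
        (Finset.insert_subset k.1 (by simpa using k.2))
        (by rw [hz t q, Finset.card_pair fun e : a = b => l.ne (e ▸ rfl)])).symm, by rintro rfl; simp⟩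
      simp [← this, l, ite_and]
    · simp [l]
  rw [pA, Finset.sum_congr rfl e, Finset.sum_comm]
  refine Finset.sum_congr rfl fun a ha => ?_
  rw [Finset.sum_comm]
  refine Finset.sum_congr rfl fun b hb => ?_
  by_cases l : col a < col b
  · simp [l, Finset.insert_subset_iff, ha, hb]
  · simp [l]

theorem pA_s2 (hz : ∀ t, z t ≠ 0 → t.card = 3) (φ : S → S → S → A) : pA z T (s2 col φ) =
    ∑ a ∈ T, ∑ b ∈ T, ∑ c ∈ T,
      if col a < col b ∧ col b < col c then z {a, b, c} • φ a b c else 0 := by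
  have e : ∀ t ∈ T.powerset, z t • s2 col φ t = ∑ a ∈ T, ∑ b ∈ T, ∑ c ∈ T,
      if (col a < col b ∧ col b < col c) ∧ t = {a, b, c} then z t • φ a b c else 0 := fun t ht => by
    by_cases q : z t = 0
    · simp [q]
    rw [s2, sum_ite_sub ht, Finset.smul_sum]
    refine Finset.sum_congr rfl fun a _ => ?_
    rw [sum_ite_sub ht, Finset.ite_sum_zero, Finset.smul_sum]
    refine Finset.sum_congr rfl fun b _ => ?_
    rw [sum_ite_sub ht, Finset.ite_sum_zero, Finset.ite_sum_zero, Finset.smul_sum]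
    refine Finset.sum_congr rfl fun c _ => ?_
    by_cases l : col a < col b ∧ col b < col c
    · have n : ∀ {x y : S}, col x < col y → x ≠ y := fun h e => h.ne (e ▸ rfl)
      have : a ∈ t ∧ b ∈ t ∧ c ∈ t ↔ t = {a, b, c} := ⟨fun k => (Finset.eq_of_subset_of_card_le
        (Finset.insert_subset k.1 (Finset.insert_subset k.2.1 (by simpa using k.2.2)))
        (by rw [hz t q, Finset.card_eq_three.2 ⟨a, b, c, n l.1, n (l.1.trans l.2), n l.2, rfl⟩])).symm,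
        by rintro rfl; simp⟩
      simp [← this, l, ite_and]
    · simp [l]
  rw [pA, Finset.sum_congr rfl e, Finset.sum_comm]
  refine Finset.sum_congr rfl fun a ha => ?_
  rw [Finset.sum_comm]
  refine Finset.sum_congr rfl fun b hb => ?_
  rw [Finset.sum_comm]
  refine Finset.sum_congr rfl fun c hc => ?_
  by_cases l : col a < col b ∧ col b < col c
  · simp [l, Finset.insert_subset_iff, ha, hb, hc]
  · simp [l]

end per

theorem ct_iff {U : Set S} {n : ℕ} {τ : Tu S n} :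
    τ ∈ CT (Cl Γ) U n ↔ (∀ i, τ i ∈ U) ∧ ∀ i j, Cl Γ (τ i) (τ j) := by
  simp [CT, Cq, Set.range_subset_iff]

/-- the cup product of closed cochains -/
theorem Z1.cup {U : Set S} {α β : S → S → ℤ} (hα : Z1 Γ U α) (hβ : Z1 Γ U β) :
    Z2 Γ U fun a b c => α a b * β b c := fun a ha b hb c hc d hd h1 h2 _ h4 h5 h6 => by
  dsimp only
  rw [hα a ha b hb c hc h1 h2 h4, hβ b hb c hc d hd h4 h5 h6]
  ring

variable {k : Type} [CommRing k] [Module k A] {U : Set S}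

theorem z0_of {ψ : Tu S 0 → A} (h : ∀ τ ∈ CT (Cl Γ) U 1, td k ψ τ = 0) :
    ∀ a ∈ U, ∀ b ∈ U, Γ.Adj a b → ψ ![a] = ψ ![b] := fun a ha b hb c => by
  have := h ![a, b] (ct_iff.2 ⟨by simp [Fin.forall_fin_succ, *],
    by simp [Fin.forall_fin_succ, Cl, c, c.symm]⟩)
  rw [td0, sub_eq_zero] at this
  exact this.symm

theorem z1_of {ψ : Tu S 1 → A} (h : ∀ τ ∈ CT (Cl Γ) U 2, td k ψ τ = 0) :
    Z1 Γ U fun a b => ψ ![a, b] := fun a ha b hb c hc h1 h2 h3 => by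
  have := h ![a, b, c] (ct_iff.2 ⟨by simp [Fin.forall_fin_succ, *],
    by simp [Fin.forall_fin_succ, Cl.refl, h1.symm, h2.symm, h3.symm, *]⟩)
  rw [td1] at this
  rw [← sub_eq_zero, ← neg_eq_zero, ← this]
  simp only [Matrix.cons_val]
  abel

theorem z2_of {ψ : Tu S 2 → A} (h : ∀ τ ∈ CT (Cl Γ) U 3, td k ψ τ = 0) :
    Z2 Γ U fun a b c => ψ ![a, b, c] := fun a ha b hb c hc d hd h1 h2 h3 h4 h5 h6 => by
  have := h ![a, b, c, d] (ct_iff.2 ⟨by simp [Fin.forall_fin_succ, *], by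
    simp [Fin.forall_fin_succ, Cl.refl, h1.symm, h2.symm, h3.symm, h4.symm, h5.symm, h6.symm, *]⟩)
  rw [td2] at this
  rw [← sub_eq_zero, ← this]
  simp only [Matrix.cons_val]
  abel

omit [AddCommGroup A] in
theorem tu0 (ψ : Tu S 0 → A) (τ : Tu S 0) : ψ τ = ψ ![τ 0] :=
  congrArg ψ (by funext j; fin_cases j; rfl)

omit [AddCommGroup A] in
theorem tu1 (ψ : Tu S 1 → A) (τ : Tu S 1) : ψ τ = ψ ![τ 0, τ 1] :=
  congrArg ψ (by funext j; fin_cases j <;> rfl)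

omit [AddCommGroup A] in
theorem tu2 (ψ : Tu S 2 → A) (τ : Tu S 2) : ψ τ = ψ ![τ 0, τ 1, τ 2] :=
  congrArg ψ (by funext j; fin_cases j <;> rfl)

variable (k) in
theorem ex1_of {ψ : Tu S 1 → A} {η : S → A} {r : S → S → A}
    (h : ∀ a ∈ U, ∀ b ∈ U, Cl Γ a b → ψ ![a, b] = η b - η a + r a b) :
    ∀ τ ∈ CT (Cl Γ) U 1, ψ τ = td k (fun σ : Tu S 0 => η (σ 0)) τ + r (τ 0) (τ 1) := fun τ hτ => by
  obtain ⟨h1, h2⟩ := ct_iff.1 hτ
  rw [tu1 ψ, h _ (h1 0) _ (h1 1) (h2 0 1), td0]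
  rfl

variable (k) in
theorem ex2_of {ψ : Tu S 2 → A} {η : S → S → A} {r : S → S → S → A}
    (h : ∀ a ∈ U, ∀ b ∈ U, ∀ c ∈ U, Cl Γ a b → Cl Γ a c → Cl Γ b c →
      ψ ![a, b, c] = η b c - η a c + η a b + r a b c) :
    ∀ τ ∈ CT (Cl Γ) U 2, ψ τ = td k (fun σ : Tu S 1 => η (σ 0) (σ 1)) τ + r (τ 0) (τ 1) (τ 2) :=
  fun τ hτ => by
    obtain ⟨h1, h2⟩ := ct_iff.1 hτ
    rw [tu2 ψ, h _ (h1 0) _ (h1 1) _ (h1 2) (h2 0 1) (h2 0 2) (h2 1 2), td1]
    rfl

theorem Z1.td {φ : S → S → A} (h : Z1 Γ U φ) :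
    ∀ τ ∈ CT (Cl Γ) U 2, td k (fun σ : Tu S 1 => φ (σ 0) (σ 1)) τ = 0 := fun τ hτ => by
  obtain ⟨h1, h2⟩ := ct_iff.1 hτ
  rw [td1]
  simp only [Matrix.cons_val]
  rw [h _ (h1 0) _ (h1 1) _ (h1 2) (h2 0 1) (h2 0 2) (h2 1 2)]
  abel

end Crest.Agent.N255.Md

end
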