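import Crest.Agent.N255.Md.Tu
import Crest.Agent.N255.Lv.Pt
import Crest.Agent.N255.Gd.Lab
import Crest.Agent.N255.Da.Fc

/-!
# Row 255 (helper12): the model facts (L2) for the concrete graph
-/

set_option autoImplicit false

noncomputable section

namespace Crest.Agent.N255.Md

open Pt Lv Nv

section gen
variable {ι I Tor K : Type} [DecidableEq ι]

/-- the model of the region cut out by the walls `J` -/
def MJ (J : Set (Ed ι)) : Set (St ι I Tor) := {a | ∀ e ∈ J, a ∉ A e}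

/-- the chambers behind `e` -/
def bh (e : Ed ι) : Set (Nd ι) := {n | n.k = none ∧ ¬hs e n.v}

theorem MJ_window (e : Ed ι) : (MJ {e, rev e} : Set (St ι I Tor)) = supE e := by
  ext a
  simp only [MJ, Set.mem_ofPred_eq, Set.mem_insert_iff, Set.mem_singleton_iff, forall_eq_or_imp, forall_eq]
  exact ⟨fun h => ((A_trich e a).resolve_left h.1).resolve_left h.2,
    fun h => ⟨fun k => A_not_supE k h, fun k => A_not_supE k (supE_rev (I := I) e ▸ h)⟩⟩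

theorem MJ_empty : (MJ ∅ : Set (St ι I Tor)) = Set.univ := by simp [MJ]

theorem nmem_A {e : Ed ι} {a : St ι I Tor} : a ∉ A e ↔ ∃ v b, ¬hs e v ∧ cp v b = a := by
  refine ⟨fun h => ?_, by rintro ⟨v, b, h, rfl⟩ k; exact h (cp_mem_A k)⟩
  obtain ⟨u, h1, h2⟩ : ∃ u, En (nd a) u ∧ ¬hs e u := by simpa [mem_A, Hd] using h
  obtain ⟨v, a | ⟨i, t⟩⟩ := a
  · obtain rfl := en_none.1 h1
    exact ⟨_, .inl a, h2, rfl⟩
  · rcases (en_tgt (e := ⟨v, i, true⟩)).1 h1 with rfl | rfl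
    · exact ⟨_, .inr ((i, true), t), h2, rfl⟩
    · exact ⟨_, .inr (op (i, true), t), h2, cp_op _ (i, true) t⟩

omit [DecidableEq ι] in
open Classical in
/-- extension by zero from the chamber `v` -/
def ex0 (v : FreeGroup ι) (φ : V ι I Tor → V ι I Tor → ℤ) (a b : St ι I Tor) : ℤ :=
  if h : a ∈ Set.range (cp v) ∧ b ∈ Set.range (cp v) then φ h.1.choose h.2.choose else 0

omit [DecidableEq ι] in
theorem ex0_cp (v : FreeGroup ι) (φ : V ι I Tor → V ι I Tor → ℤ) (a b : V ι I Tor) :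
    ex0 v φ (cp v a) (cp v b) = φ a b := by
  have h : cp v a ∈ Set.range (cp v) ∧ cp v b ∈ Set.range (cp v) := ⟨⟨a, rfl⟩, b, rfl⟩
  rw [ex0, dif_pos h, cp_injective v h.1.choose_spec, cp_injective v h.2.choose_spec]

omit [DecidableEq ι] in
theorem ex0_ne {v : FreeGroup ι} {φ : V ι I Tor → V ι I Tor → ℤ} {a b : St ι I Tor}
    (h : ex0 v φ a b ≠ 0) : ∃ a' b', cp v a' = a ∧ cp v b' = b ∧ φ a' b' ≠ 0 := by
  obtain ⟨⟨a', rfl⟩, b', rfl⟩ : a ∈ Set.range (cp v) ∧ b ∈ Set.range (cp v) :=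
    by_contra fun k => h (dif_neg k)
  exact ⟨a', b', rfl, rfl, by rwa [ex0_cp] at h⟩

omit [DecidableEq ι] in
theorem ex0_smul (g v : FreeGroup ι) (φ : V ι I Tor → V ι I Tor → ℤ) (a b : St ι I Tor) :
    ex0 (g * v) φ (g • a) (g • b) = ex0 v φ a b := by
  by_cases h : a ∈ Set.range (cp v) ∧ b ∈ Set.range (cp v)
  · obtain ⟨⟨a, rfl⟩, b, rfl⟩ := h
    rw [smul_cp, smul_cp, ex0_cp, ex0_cp]
  · rw [show ex0 v φ a b = 0 from dif_neg h]
    by_contra k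
    obtain ⟨a', b', h1, h2, -⟩ := ex0_ne k
    rw [← smul_cp] at h1 h2
    exact h ⟨⟨a', MulAction.injective g h1⟩, b', MulAction.injective g h2⟩

omit [DecidableEq ι] in
theorem cl_cp (D : Dt ι I Tor K) (v : FreeGroup ι) (a b : V ι I Tor) :
    Cl D.Gt (cp v a) (cp v b) ↔ Cl D.Γ a b :=
  or_congr (cp_injective v).eq_iff (D.adj_cp v a b)

variable [Fintype ι] [Fintype I] [Fintype Tor] [DecidableEq I] [DecidableEq Tor] [LinearOrder K]
  {D : Dt ι I Tor K} (h : D.Fc)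

theorem side_bh (e : Ed ι) : Side h.loc e (bh e) :=
  ⟨fun _ k q => q k.1, ⟨rfl, not_hs_v e⟩, fun k => k.2 (hs_hd e), fun e' q k => ⟨rfl, fun r => q
    (rev_injective (cross (e := e) (e' := rev e') r (by rw [hd_rev]; exact k.2)))⟩⟩

omit [LinearOrder K] in
theorem mod_bh (e : Ed ι) {a : St ι I Tor} : a ∈ Mod D.mir (bh e) ↔ a ∉ A e := by
  rw [nmem_A]
  refine ⟨?_, ?_⟩
  · rintro ⟨⟨v, _ | i⟩, h1, h2⟩
    · obtain ⟨b, rfl⟩ := mem_sp.1 h2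
      exact ⟨v, b, h1.2, rfl⟩
    · exact absurd h1.1 (by simp)
  · rintro ⟨v, b, h1, rfl⟩
    exact ⟨⟨v, none⟩, ⟨rfl, h1⟩, mem_sp.2 ⟨b, rfl⟩⟩

/-- the chambers behind all walls of `J` -/
def NJ (D : Dt ι I Tor K) (J : Set (Ed ι)) : Set (Nd ι) := {n | ¬D.mir.ty n ∧ ∀ e ∈ J, n ∈ bh e}

theorem sub_NJ (J : Set (Ed ι)) : Sub h.loc (NJ D J) := sub_sides fun e _ => side_bh h e

include h in
theorem mod_NJ {J : Set (Ed ι)} {v : FreeGroup ι} (hv : ∀ e ∈ J, ¬hs e v) :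
    Mod D.mir (NJ D J) = MJ J := Set.ext fun _ =>
  (mod_sides (fun e _ => side_bh h e) (n0 := ⟨v, none⟩) ⟨fun k => k rfl, fun e he => ⟨rfl, hv e he⟩⟩).trans
    (forall₂_congr fun e _ => mod_bh e)

theorem p1_eq {A : Type} [AddCommGroup A] (e : Ed ι) (φ : St ι I Tor → St ι I Tor → A) :
    p1 D.mir e (h.loc.m e) φ = ∑ p, ∑ q, if D.cv (.inr (e.k, p)) < D.cv (.inr (e.k, q)) then
      h.m e.k (({p, q} : Finset Tor).map (inW e.k)) •
        φ (cp e.v (.inr (e.k, p))) (cp e.v (.inr (e.k, q))) else 0 := by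
  rw [p1, pA_s1 fun t ht => ((h.loc.cm e).sup t ht).2]
  simp only [Dt.mir_sp, Dt.mir_tgt, Dt.sp_tgt', wT, Finset.sum_map, Dt.mir_col, cpE_apply, inW_apply,
    D.cl_cp]
  refine Finset.sum_congr rfl fun p _ => Finset.sum_congr rfl fun q _ => if_congr Iff.rfl ?_ rfl
  rw [← ps_map (cpE e.v) (h.m e.k)]
  simp only [Finset.map_insert, Finset.map_singleton]
  rfl

theorem p2_eq {A : Type} [AddCommGroup A] (e : Ed ι) (φ : St ι I Tor → St ι I Tor → St ι I Tor → A) :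
    p2 D.mir e (h.loc.ω e) φ = ∑ p, ∑ q, ∑ r, if D.cv (.inr (e.k, p)) < D.cv (.inr (e.k, q)) ∧
      D.cv (.inr (e.k, q)) < D.cv (.inr (e.k, r)) then
      h.ω e.k (({p, q, r} : Finset Tor).map (inW e.k)) • φ (cp e.v (.inr (e.k, p)))
        (cp e.v (.inr (e.k, q))) (cp e.v (.inr (e.k, r))) else 0 := by
  rw [p2, pA_s2 fun t ht => ((h.loc.cω e).sup t ht).2]
  simp only [Dt.mir_sp, Dt.mir_tgt, Dt.sp_tgt', wT, Finset.sum_map, Dt.mir_col, cpE_apply, inW_apply,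
    D.cl_cp]
  refine Finset.sum_congr rfl fun p _ => Finset.sum_congr rfl fun q _ =>
    Finset.sum_congr rfl fun r _ => if_congr Iff.rfl ?_ rfl
  rw [← ps_map (cpE e.v) (h.ω e.k)]
  simp only [Finset.map_insert, Finset.map_singleton]
  rfl

end gen

open Da

/-- the torus label -/
def tl (a : St (Fin 3) (Fin 112) (Fin 16)) : Fin 16 := a.k.elim (fun _ => 0) Prod.snd

/-- the seams, on every wall -/
def sE (b : Bool) (a a' : St (Fin 3) (Fin 112) (Fin 16)) : ℤ := Gd.se b (tl a) (tl a')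

/-- the class dual to the meridian of `e`, on the chamber behind `e` -/
def xi (e : Ed (Fin 3)) : St (Fin 3) (Fin 112) (Fin 16) → St (Fin 3) (Fin 112) (Fin 16) → ℤ :=
  ex0 e.v (Gd.x e.k)

theorem sE_cp (b : Bool) (v : FreeGroup (Fin 3)) (j : Fin 3 × Bool) (p q : Fin 16) :
    sE b (cp v (.inr (j, p))) (cp v (.inr (j, q))) = Gd.se b p q := rfl

theorem sE_smul (b : Bool) (g : FreeGroup (Fin 3)) (a a' : St (Fin 3) (Fin 112) (Fin 16)) :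
    sE b (g • a) (g • a') = sE b a a' := rfl

theorem xi_cp (e : Ed (Fin 3)) (a b : VV) : xi e (cp e.v a) (cp e.v b) = Gd.x e.k a b := ex0_cp _ _ _ _

theorem xi_smul (g : FreeGroup (Fin 3)) (e : Ed (Fin 3)) (a b : St (Fin 3) (Fin 112) (Fin 16)) :
    xi (g • e) (g • a) (g • b) = xi e a b := ex0_smul _ _ _ _ _

theorem mem_wall {e : Ed (Fin 3)} {a : St (Fin 3) (Fin 112) (Fin 16)} :
    a ∈ supE e ↔ ∃ p, cp e.v (.inr (e.k, p)) = a := Iff.rfl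

/-- on its own wall `xi e` is the meridian seam -/
theorem xi_wall {e : Ed (Fin 3)} {a b : St (Fin 3) (Fin 112) (Fin 16)} (ha : a ∈ supE e)
    (hb : b ∈ supE e) (c : Cl D.Gt a b) : xi e a b = sE e.k.2 a b := by
  obtain ⟨p, rfl⟩ := mem_wall.1 ha
  obtain ⟨q, rfl⟩ := mem_wall.1 hb
  rw [xi_cp, Gd.x_wall _ _ ((cl_cp D _ _ _).1 c), if_pos rfl, sE_cp]

/-- `xi e` vanishes on the other chambers behind `e` -/
theorem xi_other {e : Ed (Fin 3)} {v : FreeGroup (Fin 3)} (h1 : v ≠ e.v) (h2 : v ≠ hd e) {a b : VV}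
    (c : Cl D.Γ a b) : xi e (cp v a) (cp v b) = 0 := by
  by_contra k
  obtain ⟨a', b', a1, b1, k⟩ := ex0_ne k
  obtain ⟨j, p, rfl, -, r⟩ := (cp_eq.1 a1).resolve_left fun q => h1 q.1
  obtain ⟨j', q, rfl, -, r'⟩ := (cp_eq.1 b1).resolve_left fun q => h1 q.1
  obtain rfl : j = j' := x_injective (mul_left_cancel (r.symm.trans r'))
  rw [Gd.x_wall _ _ ((cl_cp D e.v _ _).1 (by rw [a1, b1]; exact (cl_cp D _ _ _).2 c)), if_neg] at k
  · exact k rfl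
  · rintro rfl
    exact h2 r

/-- `xi e` vanishes on the other walls -/
theorem xi_wall_ne {e e' : Ed (Fin 3)} (h1 : e' ≠ e) (h2 : e' ≠ rev e)
    {a b : St (Fin 3) (Fin 112) (Fin 16)} (ha : a ∈ supE e') (hb : b ∈ supE e') (c : Cl D.Gt a b) :
    xi e a b = 0 := by
  obtain ⟨p, rfl⟩ := mem_wall.1 ha
  obtain ⟨q, rfl⟩ := mem_wall.1 hb
  have c' := (cl_cp D _ _ _).1 c
  by_cases k : e'.v = e.v
  · rw [k, xi_cp, Gd.x_wall _ _ c', if_neg fun r => h1 (L.ext k r.symm)]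
  by_cases k' : e'.v = hd e
  · by_contra r
    obtain ⟨a', b', a1, -, -⟩ := ex0_ne r
    obtain ⟨j, t, -, r1, r2⟩ := (cp_eq.1 a1).resolve_left fun q => k q.1
    obtain rfl : e.k = j := x_injective (mul_left_cancel (k'.symm.trans r2))
    exact h2 (L.ext k' (by simpa using congrArg (fun a : VV => a.elim (fun _ => e.k) Prod.fst) r1))
  · exact xi_other k k' c'

theorem sE_z1 (b : Bool) (e : Ed (Fin 3)) : Z1 D.Gt (supE e) (sE b) := by
  rintro _ ⟨p, rfl⟩ _ ⟨q, rfl⟩ _ ⟨r, rfl⟩ h1 h2 h3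
  exact Gd.se_coc b e.k ((cl_cp D e.v _ _).1 h1) ((cl_cp D e.v _ _).1 h2) ((cl_cp D e.v _ _).1 h3)

theorem xi_z1 (e : Ed (Fin 3)) : Z1 D.Gt (A e)ᶜ (xi e) := fun a ha b hb c hc h1 h2 h3 => by
  have cl : D.Gt.IsClique ((({a, b, c} : Finset _)) : Set (St (Fin 3) (Fin 112) (Fin 16))) := by
    have := h1.symm; have := h2.symm; have := h3.symm
    simp only [Finset.coe_insert, Finset.coe_singleton]
    rintro x (rfl | rfl | rfl) y (rfl | rfl | rfl) n <;>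
      first | exact absurd rfl n | exact Or.resolve_left ‹Cl _ _ _› n
  obtain ⟨⟨v, _ | i⟩, hn, k⟩ := (side_bh fc e).sub.full cl (by simp) (by
    simp only [Finset.coe_insert, Finset.coe_singleton]
    rintro x (rfl | rfl | rfl) <;> exact (mod_bh e).2 ‹_›)
  swap
  · exact absurd hn.1 (by simp)
  obtain ⟨a, rfl⟩ := mem_sp.1 (k (show a ∈ _ by simp))
  obtain ⟨b, rfl⟩ := mem_sp.1 (k (show b ∈ _ by simp))
  obtain ⟨c, rfl⟩ := mem_sp.1 (k (show c ∈ _ by simp))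
  rw [cl_cp] at h1 h2 h3
  by_cases q : v = e.v
  · subst q
    rw [xi_cp, xi_cp, xi_cp]
    exact Gd.x_coc _ h1 h2 h3
  · have q' : v ≠ hd e := fun r => hn.2 (r ▸ hs_hd e)
    rw [xi_other q q' h1, xi_other q q' h2, xi_other q q' h3, add_zero]

theorem chk_p1 : ∀ (j : Fin 3 × Bool) (b : Bool), (∑ p : Fin 16, ∑ q : Fin 16,
    if cn (112 + p) < cn (112 + q) ∧ (tg p).testBit q then
      m0 (wn j) (2 ^ (p : ℕ) + 2 ^ (q : ℕ)) * Gd.se b p q else 0) = if b = j.2 then 1 else 0 := by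
  decide +kernel

theorem chk_p2 : ∀ j : Fin 3 × Bool, (∑ p : Fin 16, ∑ q : Fin 16, ∑ r : Fin 16,
    if (cn (112 + p) < cn (112 + q) ∧ cn (112 + q) < cn (112 + r)) ∧
      (tg p).testBit q ∧ (tg p).testBit r ∧ (tg q).testBit r then
      w0 (wn j) (2 ^ (p : ℕ) + (2 ^ (q : ℕ) + 2 ^ (r : ℕ))) * (Gd.se j.2 p q * Gd.se (!j.2) q r) else 0) =
      -1 := by
  decide +kernel

theorem cv_lt (j : Fin 3 × Bool) (p q : Fin 16) :
    D.cv (.inr (j, p)) < D.cv (.inr (j, q)) ↔ cn (112 + p) < cn (112 + q) := by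
  rw [hcn, cn_wall, cn_wall]

theorem p1_sE (e : Ed (Fin 3)) (b : Bool) :
    p1 D.mir e (loc.m e) (sE b) = if b = e.k.2 then 1 else 0 := by
  rw [← chk_p1]
  refine (p1_eq fc e _).trans (Finset.sum_congr rfl fun p _ => Finset.sum_congr rfl fun q _ => ?_)
  simp only [cv_lt, sE_cp, smul_eq_mul]
  by_cases l : cn (112 + p) < cn (112 + q)
  swap
  · simp [l]
  have n : p ≠ q := fun e => l.ne (e ▸ rfl)
  rw [if_pos l, show fc.m e.k = mm e.k from rfl, mm, gr]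
  have : ({p, q} : Finset (Fin 16)).map (inW e.k) ∈ Ch.Q D.Γ (wT e.k) ∅ ↔ (tg p).testBit q := by
    rw [← adj_wall e.k]
    refine (and_iff_left ⟨by simp, Finset.map_subset_map.2 (by simp)⟩).trans ?_
    simp [n]
    rfl
  simp only [this, Finset.card_map, Finset.card_pair n, mN, msk_inW, Finset.sum_pair n, l, true_and,
    and_true, ite_mul, zero_mul]

theorem p1_sE' (e : Ed (Fin 3)) (b : Bool) :
    p1 D.mir e (loc.m (loc.op e)) (sE b) = if b = !e.k.2 then 1 else 0 := by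
  have := p1_sE (loc.op e) b
  rwa [p1, loc.tgt_op] at this

theorem p2_sE (e : Ed (Fin 3)) :
    p2 D.mir e (loc.ω e) (fun a b c => sE e.k.2 a b * sE (!e.k.2) b c) = -1 := by
  rw [← chk_p2 e.k]
  refine (p2_eq fc e _).trans (Finset.sum_congr rfl fun p _ => Finset.sum_congr rfl fun q _ =>
    Finset.sum_congr rfl fun r _ => ?_)
  simp only [cv_lt, sE_cp, smul_eq_mul]
  by_cases l : cn (112 + p) < cn (112 + q) ∧ cn (112 + q) < cn (112 + r)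
  swap
  · simp [l]
  have n : ∀ {p q : Fin 16}, cn (112 + p) < cn (112 + q) → p ≠ q := fun l e => l.ne (e ▸ rfl)
  have n1 := n l.1
  have n2 := n l.2
  have n3 := n (l.1.trans l.2)
  have m : p ∉ ({q, r} : Finset (Fin 16)) := by simp [n1, n3]
  rw [if_pos l, show fc.ω e.k = ww e.k from rfl, ww, gr]
  have : ({p, q, r} : Finset (Fin 16)).map (inW e.k) ∈ Ch.Q D.Γ (wT e.k) ∅ ↔
      (tg p).testBit q ∧ (tg p).testBit r ∧ (tg q).testBit r := by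
    rw [← adj_wall e.k, ← adj_wall e.k, ← adj_wall e.k]
    refine (and_iff_left ⟨by simp, Finset.map_subset_map.2 (by simp)⟩).trans ?_
    refine Iff.trans ?_ SimpleGraph.is3Clique_triple_iff
    rw [SimpleGraph.isNClique_iff, and_iff_left (Finset.card_eq_three.2
      ⟨_, _, _, by simpa using n1, by simpa using n3, by simpa using n2, rfl⟩)]
    simp only [Finset.map_insert, Finset.map_singleton]
    rfl
  simp only [this, Finset.card_map, Finset.card_insert_of_notMem m, Finset.card_pair n2, wN, msk_inW,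
    Finset.sum_insert m, Finset.sum_pair n2, l, true_and, and_true, ite_mul, zero_mul]

theorem p1_xi (e j : Ed (Fin 3)) (h : e ≠ rev j) :
    p1 D.mir e (loc.m e) (xi j) = if j = e then 1 else 0 := by
  split_ifs with q
  · subst q
    rw [p1_congr (loc.cm j) (ψ := sE j.k.2) fun a ha b hb c =>
      xi_wall (mem_sp.1 ha) (mem_sp.1 hb) (.inr c), p1_sE, if_pos rfl]
  · exact p1_exact (loc.cm e) (η := 0) fun a ha b hb c => by
      rw [xi_wall_ne (Ne.symm q) h (mem_sp.1 ha) (mem_sp.1 hb) (.inr c)]; simp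

variable {A : Type} [AddCommGroup A]

/-- **(L2)** `MJ J` is connected -/
theorem mj0 {J : Set (Ed (Fin 3))} {v : FreeGroup (Fin 3)} (hv : ∀ e ∈ J, ¬hs e v)
    {φ : St (Fin 3) (Fin 112) (Fin 16) → A} (h : ∀ a ∈ MJ J, ∀ b ∈ MJ J, D.Gt.Adj a b → φ a = φ b) :
    ∀ a ∈ MJ J, ∀ b ∈ MJ J, φ a = φ b := by
  rw [← mod_NJ fc hv] at h ⊢
  exact h0 (sub_NJ fc J) h

/-- **(L2)** `H¹ (MJ J)` is spanned by the `xi e`, `e ∈ J` -/
theorem mj1 {J : Finset (Ed (Fin 3))} {v : FreeGroup (Fin 3)} (hv : ∀ e ∈ J, ¬hs e v)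
    {φ : St (Fin 3) (Fin 112) (Fin 16) → St (Fin 3) (Fin 112) (Fin 16) → A}
    (h : Z1 D.Gt (MJ (J : Set (Ed (Fin 3)))) φ) : ∃ η : St (Fin 3) (Fin 112) (Fin 16) → A,
      ∀ a ∈ MJ (J : Set (Ed (Fin 3))), ∀ b ∈ MJ (J : Set (Ed (Fin 3))), Cl D.Gt a b →
        φ a b = η b - η a + ∑ j ∈ J, xi j a b • p1 D.mir j (loc.m j) φ := by
  have e := mod_NJ fc (J := J) hv
  have := h1_span (sub_NJ fc J) (e ▸ h) J
    (fun e h1 h2 => bd_sides (J := (J : Set (Ed (Fin 3)))) (e := e) (fun e _ => side_bh fc e) h1 h2) (ξ := xi)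
    (fun j hj => e ▸ (xi_z1 j).mono fun a ha => ha j hj) fun e he j hj => p1_xi e j fun q =>
      hv e he (q ▸ hs_rev.2 (hv j hj))
  rwa [e] at this

/-- **(L2)** the wall -/
theorem w0c (e : Ed (Fin 3)) {φ : St (Fin 3) (Fin 112) (Fin 16) → A}
    (h : ∀ a ∈ supE e, ∀ b ∈ supE e, D.Gt.Adj a b → φ a = φ b) :
    ∀ a ∈ supE e, ∀ b ∈ supE e, φ a = φ b := fun a ha b hb =>
  t0 loc e (fun a ha b hb => h a (mem_sp.1 ha) b (mem_sp.1 hb)) a (mem_sp.2 ha) b (mem_sp.2 hb)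

theorem coe_wall (e : Ed (Fin 3)) :
    (↑(D.mir.sp (D.mir.tgt e)) : Set (St (Fin 3) (Fin 112) (Fin 16))) = supE e := coe_sp _

theorem w1c (e : Ed (Fin 3)) {φ : St (Fin 3) (Fin 112) (Fin 16) → St (Fin 3) (Fin 112) (Fin 16) → A}
    (h : Z1 D.Gt (supE e) φ) : ∃ η : St (Fin 3) (Fin 112) (Fin 16) → A,
      ∀ a ∈ supE e, ∀ b ∈ supE e, Cl D.Gt a b → φ a b = η b - η a +
        (sE e.k.2 a b • p1 D.mir e (loc.m e) φ + sE (!e.k.2) a b • p1 D.mir e (loc.m (rev e)) φ) := by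
  obtain ⟨η, k⟩ := t1_span loc e (coe_wall e ▸ h) (coe_wall e ▸ sE_z1 e.k.2 e)
    (coe_wall e ▸ sE_z1 (!e.k.2) e) (by rw [p1_sE]; simp) (by rw [p1_sE']; simp) (by rw [p1_sE]; simp)
    (by rw [p1_sE']; simp)
  exact ⟨η, fun a ha b hb c => (k a (mem_sp.2 ha) b (mem_sp.2 hb) c).trans (add_assoc _ _ _)⟩

theorem w2c (e : Ed (Fin 3)) {φ : St (Fin 3) (Fin 112) (Fin 16) → St (Fin 3) (Fin 112) (Fin 16) →
    St (Fin 3) (Fin 112) (Fin 16) → A} (h : Z2 D.Gt (supE e) φ) :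
    ∃ ψ : St (Fin 3) (Fin 112) (Fin 16) → St (Fin 3) (Fin 112) (Fin 16) → A,
      ∀ a ∈ supE e, ∀ b ∈ supE e, ∀ c ∈ supE e, Cl D.Gt a b → Cl D.Gt a c → Cl D.Gt b c →
        φ a b c = ψ b c - ψ a c + ψ a b +
          (sE e.k.2 a b * sE (!e.k.2) b c) • -p2 D.mir e (loc.ω e) φ := by
  obtain ⟨ψ, k⟩ := t2_span loc e (coe_wall e ▸ h)
    (coe_wall e ▸ (sE_z1 e.k.2 e).cup (sE_z1 (!e.k.2) e)) (u := -1) (by rw [p2_sE]; rfl)
  exact ⟨ψ, fun a ha b hb c hc h1 h2 h3 => by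
    rw [k a (mem_sp.2 ha) b (mem_sp.2 hb) c (mem_sp.2 hc) h1 h2 h3, neg_one_zsmul]⟩

/-! ### on tuples -/

variable (k : Type) [CommRing k] [Module k A]

theorem mj0_tu {J : Set (Ed (Fin 3))} {v : FreeGroup (Fin 3)} (hv : ∀ e ∈ J, ¬hs e v)
    {ψ : Tu (St (Fin 3) (Fin 112) (Fin 16)) 0 → A} (h : ∀ τ ∈ CT (Cl D.Gt) (MJ J) 1, td k ψ τ = 0) :
    ∃ c, ∀ τ ∈ CT (Cl D.Gt) (MJ J) 0, ψ τ = c :=
  ⟨ψ ![cp v (.inl 0)], fun τ hτ => (tu0 ψ τ).trans (mj0 hv (φ := fun a => ψ ![a]) (z0_of h) _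
    ((ct_iff.1 hτ).1 0) _ fun e he => nmem_A.2 ⟨v, _, hv e he, rfl⟩)⟩

theorem mj1_tu {J : Finset (Ed (Fin 3))} {v : FreeGroup (Fin 3)} (hv : ∀ e ∈ J, ¬hs e v)
    {ψ : Tu (St (Fin 3) (Fin 112) (Fin 16)) 1 → A}
    (h : ∀ τ ∈ CT (Cl D.Gt) (MJ (J : Set (Ed (Fin 3)))) 2, td k ψ τ = 0) :
    ∃ (η : Tu (St (Fin 3) (Fin 112) (Fin 16)) 0 → A) (c : Ed (Fin 3) → A),
      ∀ τ ∈ CT (Cl D.Gt) (MJ (J : Set (Ed (Fin 3)))) 1,
        ψ τ = td k η τ + ∑ j ∈ J, xi j (τ 0) (τ 1) • c j :=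
  let ⟨_, h⟩ := mj1 hv (z1_of h); ⟨_, _, ex1_of k h⟩

theorem w0_tu (e : Ed (Fin 3)) {ψ : Tu (St (Fin 3) (Fin 112) (Fin 16)) 0 → A}
    (h : ∀ τ ∈ CT (Cl D.Gt) (supE e) 1, td k ψ τ = 0) : ∃ c, ∀ τ ∈ CT (Cl D.Gt) (supE e) 0, ψ τ = c :=
  ⟨ψ ![cp e.v (.inr (e.k, 0))], fun τ hτ => (tu0 ψ τ).trans (w0c e (φ := fun a => ψ ![a]) (z0_of h) _
    ((ct_iff.1 hτ).1 0) _ ⟨0, rfl⟩)⟩

theorem w1_tu (e : Ed (Fin 3)) {ψ : Tu (St (Fin 3) (Fin 112) (Fin 16)) 1 → A}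
    (h : ∀ τ ∈ CT (Cl D.Gt) (supE e) 2, td k ψ τ = 0) :
    ∃ (η : Tu (St (Fin 3) (Fin 112) (Fin 16)) 0 → A) (a b : A), ∀ τ ∈ CT (Cl D.Gt) (supE e) 1,
      ψ τ = td k η τ + (sE e.k.2 (τ 0) (τ 1) • a + sE (!e.k.2) (τ 0) (τ 1) • b) :=
  let ⟨_, h⟩ := w1c e (z1_of h); ⟨_, _, _, ex1_of k h⟩

theorem w2_tu (e : Ed (Fin 3)) {ψ : Tu (St (Fin 3) (Fin 112) (Fin 16)) 2 → A}
    (h : ∀ τ ∈ CT (Cl D.Gt) (supE e) 3, td k ψ τ = 0) :
    ∃ (η : Tu (St (Fin 3) (Fin 112) (Fin 16)) 1 → A) (c : A), ∀ τ ∈ CT (Cl D.Gt) (supE e) 2,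
      ψ τ = td k η τ + (sE e.k.2 (τ 0) (τ 1) * sE (!e.k.2) (τ 1) (τ 2)) • c :=
  let ⟨_, h⟩ := w2c e (z2_of h)
  ⟨_, _, ex2_of k (r := fun a b c => (sE e.k.2 a b * sE (!e.k.2) b c) • _) h⟩

end Crest.Agent.N255.Md

end
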