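import Crest.Agent.N255.Md.Cf
import Crest.Agent.N255.Ch.Main

/-!
# Row 255 (helper12): cohomology of a chamber and of a wall with arbitrary coefficients
-/

set_option autoImplicit false
open Finsupp

noncomputable section

namespace Crest.Agent.N255.Md

open Ch

section gen
variable {S K : Type} [DecidableEq S] [LinearOrder K] {Γ : SimpleGraph S} {col : S → K}
  {U T : Finset S} {A : Type} [AddCommGroup A] {z : Finset S → ℤ}

theorem pe_pA (h : ∀ t, z t ≠ 0 → t ⊆ U) (y : Finset S →₀ ℤ) : pe z y = pA z U y := by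
  induction y using Finsupp.induction_linear with
  | zero => simp [pA]
  | add a b ha hb => simp [pA, mul_add, Finset.sum_add_distrib] at ha hb ⊢; rw [ha, hb]
  | single t r =>
    simp only [pA, linearCombination_single, single_apply, smul_eq_mul, mul_ite, mul_zero,
      Finset.sum_ite_eq]
    split_ifs with e
    · exact mul_comm _ _
    · rw [show z t = 0 from by_contra fun e' => e (Finset.mem_powerset.2 (h t e')), mul_zero]

omit [DecidableEq S] in
theorem pA_congr {a b : Finset S → A} (h : ∀ t, z t ≠ 0 → a t = b t) : pA z U a = pA z U b :=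
  Finset.sum_congr rfl fun t _ => by
    by_cases e : z t = 0
    · rw [e, zero_smul, zero_smul]
    · rw [h t e]

omit [DecidableEq S] in
theorem pA_add (a b : Finset S → A) : pA z U (fun t => a t + b t) = pA z U a + pA z U b := by
  simp [pA, Finset.sum_add_distrib]

omit [DecidableEq S] in
theorem pA_sub (a b : Finset S → A) : pA z U (fun t => a t - b t) = pA z U a - pA z U b := by
  simp [pA, smul_sub, Finset.sum_sub_distrib]

omit [DecidableEq S] in
theorem pA_sum {J : Type} (B : Finset J) (x : J → Finset S → ℤ) (v : J → A) :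
    pA z U (fun t => ∑ j ∈ B, x j t • v j) = ∑ j ∈ B, pA z U (x j) • v j := by
  simp only [pA, Finset.smul_sum, Finset.sum_smul, smul_eq_mul, mul_smul]
  exact Finset.sum_comm

theorem pA_dA (hs : ∀ t, z t ≠ 0 → t ∈ Q Γ T ∅)
    (hc : ∀ t ∈ Q Γ T ∅, pe z (dq Γ col T (single t 1)) = 0) (η : Finset S → A) :
    pA z T (dA col η) = 0 := by
  classical
  have e : ∀ t, z t ≠ 0 → dA col η t =
      ∑ u ∈ T.powerset.filter (· ∈ Q Γ T ∅), dq Γ col T (single u 1) t • η u := fun t ht => by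
    have hv := hs t ht
    simp only [dq_apply, if_pos hv.1, Finset.inter_eq_left.2 hv.2.2, Finset.sum_smul]
    rw [Finset.sum_comm]
    refine Finset.sum_congr rfl fun s _ => ?_
    simp only [single_apply, mul_ite, mul_one, mul_zero, ite_smul, zero_smul, Finset.sum_ite_eq']
    exact (if_pos (Finset.mem_filter.2 ⟨Finset.mem_powerset.2 (Q_erase hv s).2.2, Q_erase hv s⟩)).symm
  rw [pA_congr e, pA_sum]
  exact Finset.sum_eq_zero fun u hu => by
    rw [← pe_pA fun t ht => (hs t ht).2.2, hc u (Finset.mem_filter.1 hu).2, zero_smul]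

omit [DecidableEq S] in
theorem pe_card {V : Set (Finset S)} {n k : ℕ} (hz : ∀ t, z t ≠ 0 → t.card = k) {y : Finset S →₀ ℤ}
    (hy : y ∈ Sp (V ∩ {t | t.card = n})) (h : n ≠ k) : pe z y = 0 :=
  pe_zero fun t ht => by_contra fun e => h ((mem_Sp.1 hy t e).2.symm.trans (hz t ht))

omit [DecidableEq S] in
theorem s1_sub (φ ψ : S → S → A) (t : Finset S) :
    s1 col (fun a b => φ a b - ψ a b) t = s1 col φ t - s1 col ψ t := by
  simp only [s1, ← Finset.sum_sub_distrib]
  exact Finset.sum_congr rfl fun a _ => Finset.sum_congr rfl fun b _ => by split_ifs <;> simp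

omit [DecidableEq S] in
theorem s1_sum {J : Type} (B : Finset J) (x : J → S → S → ℤ) (v : J → A) (t : Finset S) :
    s1 col (fun a b => ∑ j ∈ B, x j a b • v j) t = ∑ j ∈ B, s1 col (x j) t • v j := by
  simp only [s1, Finset.sum_smul]
  rw [Finset.sum_comm (s := B)]
  refine Finset.sum_congr rfl fun a _ => ?_
  rw [Finset.sum_comm (s := B)]
  exact Finset.sum_congr rfl fun b _ => by split_ifs <;> simp

omit [DecidableEq S] in
theorem s2_sub (φ : S → S → S → A) (x : S → S → S → ℤ) (v : A) (t : Finset S) :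
    s2 col (fun a b c => φ a b c - x a b c • v) t = s2 col φ t - s2 col x t • v := by
  simp only [s2, Finset.sum_smul, ← Finset.sum_sub_distrib]
  exact Finset.sum_congr rfl fun a _ => Finset.sum_congr rfl fun b _ =>
    Finset.sum_congr rfl fun c _ => by split_ifs <;> simp

theorem const_of (hcol : ∀ s t, Γ.Adj s t → col s ≠ col t) (sat : Sat Γ col U)
    (glob : ∀ y ∈ Sp (Q Γ U ∅ ∩ {t | t.card = 1}), dq Γ col U y = 0 → ∃ b, dq Γ col U b = y)
    {φ : S → A} (h : ∀ a ∈ U, ∀ b ∈ U, Γ.Adj a b → φ a = φ b) : ∀ a ∈ U, ∀ b ∈ U, φ a = φ b := by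
  obtain ⟨η, hη⟩ := coef (n := 1) sat (∅ : Finset Unit) 0 0 (by simp)
    (fun y hy hd => by simpa [eq_comm] using glob y hy hd) (a := fun t => ∑ s ∈ t, φ s) fun v hv => by
      obtain ⟨a, ha, b, hb, h1, l, rfl⟩ := X2 hcol hv
      simp [dA_pair _ l, h a ha b hb h1]
  have : ∀ a ∈ U, φ a = η ∅ := fun a ha => by
    simpa [dA_one] using hη {a} (mem_Xn.2 ⟨⟨by simp, by simp, by simpa using ha⟩, by simp⟩)
  exact fun a ha b hb => (this a ha).trans (this b hb).symm

theorem Z1.of_dA (hcol : ∀ s t, Γ.Adj s t → col s ≠ col t) {φ : S → S → A} (h : Z1 Γ (U : Set S) φ)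
    {η : Finset S → A} (hη : ∀ t ∈ Xn Γ U 2, s1 col φ t = dA col η t) :
    ∀ a ∈ U, ∀ b ∈ U, Cl Γ a b → φ a b = η {b} - η {a} :=
  h.ord hcol (η := fun a => η {a}) fun a ha b hb c l => by
    rw [← s1_pair φ l, hη _ (pair_mem ha hb c), dA_pair _ l]

omit [DecidableEq S] in
theorem Z1.mono {V W : Set S} {φ : S → S → A} (h : Z1 Γ V φ) (hW : W ⊆ V) : Z1 Γ W φ :=
  fun a ha b hb c hc => h a (hW ha) b (hW hb) c (hW hc)

omit [DecidableEq S] in
theorem Z2.mono {V W : Set S} {φ : S → S → S → A} (h : Z2 Γ V φ) (hW : W ⊆ V) : Z2 Γ W φ :=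
  fun a ha b hb c hc d hd => h a (hW ha) b (hW hb) c (hW hc) d (hW hd)

omit [DecidableEq S] in
theorem Z1.sub_sum {V : Set S} {φ : S → S → A} (h : Z1 Γ V φ) {J : Type} {B : Finset J}
    {x : J → S → S → ℤ} (hx : ∀ j ∈ B, Z1 Γ V (x j)) (v : J → A) :
    Z1 Γ V fun a b => φ a b - ∑ j ∈ B, x j a b • v j := fun a ha b hb c hc h1 h2 h3 => by
  dsimp only
  rw [h a ha b hb c hc h1 h2 h3, Finset.sum_congr rfl fun j hj => by
    rw [hx j hj a ha b hb c hc h1 h2 h3, add_smul], Finset.sum_add_distrib]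
  abel

end gen

variable {S K F Nd Ed : Type} [DecidableEq S] [LinearOrder K] [Group F] [MulAction F Nd]
  [MulAction F Ed] {M : Ce.Mir S K F Nd Ed} {A : Type} [AddCommGroup A]

variable (M) in
/-- the period of a one-cochain over the cycle `z` of the wall of `e` -/
def p1 (e : Ed) (z : Finset S → ℤ) (φ : S → S → A) : A := pA z (M.sp (M.tgt e)) (s1 M.col φ)

variable (M) in
/-- the period of a two-cochain over the cycle `z` of the wall of `e` -/
def p2 (e : Ed) (z : Finset S → ℤ) (φ : S → S → S → A) : A := pA z (M.sp (M.tgt e)) (s2 M.col φ)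

theorem p1_sub_sum (e : Ed) (z : Finset S → ℤ) (φ : S → S → A) {J : Type} (B : Finset J)
    (x : J → S → S → ℤ) (v : J → A) : p1 M e z (fun a b => φ a b - ∑ j ∈ B, x j a b • v j) =
      p1 M e z φ - ∑ j ∈ B, p1 M e z (x j) • v j := by
  unfold p1
  rw [← pA_sum, ← pA_sub]
  exact pA_congr fun t _ => by rw [s1_sub, s1_sum]

theorem p1_congr {e : Ed} {z : Finset S → ℤ} {k : ℕ} (h : Loc.Cyc M e z k) {φ ψ : S → S → A}
    (k : ∀ a ∈ M.sp (M.tgt e), ∀ b ∈ M.sp (M.tgt e), M.Γ.Adj a b → φ a b = ψ a b) :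
    p1 M e z φ = p1 M e z ψ :=
  pA_congr fun t ht => Finset.sum_congr rfl fun a ha => Finset.sum_congr rfl fun b hb => by
    have := (h.sup t ht).1
    split_ifs with l
    · exact k a (this.2.2 ha) b (this.2.2 hb) (this.1 ha hb fun e => l.ne (e ▸ rfl))
    · rfl

/-- periods of exact cochains vanish -/
theorem p1_exact {e : Ed} {z : Finset S → ℤ} (h : Loc.Cyc M e z 2) {φ : S → S → A} {η : S → A}
    (k : ∀ a ∈ M.sp (M.tgt e), ∀ b ∈ M.sp (M.tgt e), M.Γ.Adj a b → φ a b = η b - η a) :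
    p1 M e z φ = 0 := by
  rw [← pA_dA (fun t ht => (h.sup t ht).1) h.cyc fun t => ∑ s ∈ t, η s]
  refine pA_congr fun t ht => ?_
  obtain ⟨a, ha, b, hb, c, l, rfl⟩ := X2 M.col_ne (mem_Xn.2 (h.sup t ht))
  simp [s1_pair _ l, dA_pair _ l, k a ha b hb c]

theorem p2_exact {e : Ed} {z : Finset S → ℤ} (h : Loc.Cyc M e z 3) {φ : S → S → S → A}
    {η : S → S → A} (k : ∀ a ∈ M.sp (M.tgt e), ∀ b ∈ M.sp (M.tgt e), ∀ c ∈ M.sp (M.tgt e),
      M.Γ.Adj a b → M.Γ.Adj a c → M.Γ.Adj b c → φ a b c = η b c - η a c + η a b) :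
    p2 M e z φ = 0 := by
  rw [← pA_dA (fun t ht => (h.sup t ht).1) h.cyc (s1 M.col η)]
  refine pA_congr fun t ht => ?_
  obtain ⟨a, ha, b, hb, c, hc, h1, h2, h3, l, l', rfl⟩ := X3 M.col_ne (mem_Xn.2 (h.sup t ht))
  rw [s2_tri _ l l', dA_tri _ l l', s1_pair _ l, s1_pair _ l', s1_pair _ (l.trans l'),
    k a ha b hb c hc h1 h2 h3]

variable [DecidableEq Ed] (L : Loc M)
include L

theorem sat_ch {n : Nd} (hn : ¬M.ty n) : Sat M.Γ M.col (M.sp n) := fun c y hy a _ e hc =>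
  (L.wal n hn).glob y hy
    ((smul_eq_zero.1 (by rw [← map_smul, ← e, dq_dq M.col_ne])).resolve_left hc) fun j hj =>
    have w : M.sp (M.tgt j) ⊆ M.sp n := (show M.src j = n from hj) ▸ L.wall j
    ⟨(smul_eq_zero.1 (by rw [← map_smul, ← e, (L.cm j).dq w])).resolve_left hc,
      (smul_eq_zero.1 (by rw [← map_smul, ← e, (L.cω j).dq w])).resolve_left hc⟩

theorem sat_wall (j : Ed) : Sat M.Γ M.col (M.sp (M.tgt j)) := fun c y hy a _ e hc =>
  (L.tor j).glob y hy
    ((smul_eq_zero.1 (by rw [← map_smul, ← e, dq_dq M.col_ne])).resolve_left hc)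
    ((smul_eq_zero.1 (by rw [← map_smul, ← e, (L.cm j).dq subset_rfl])).resolve_left hc)
    ((smul_eq_zero.1 (by rw [← map_smul, ← e, (L.cl j).dq subset_rfl])).resolve_left hc)
    ((smul_eq_zero.1 (by rw [← map_smul, ← e, (L.cω j).dq subset_rfl])).resolve_left hc)

/-- a chamber is connected -/
theorem c0 {n : Nd} (hn : ¬M.ty n) {φ : S → A}
    (h : ∀ a ∈ M.sp n, ∀ b ∈ M.sp n, M.Γ.Adj a b → φ a = φ b) : ∀ a ∈ M.sp n, ∀ b ∈ M.sp n, φ a = φ b :=
  const_of M.col_ne (sat_ch L hn) (fun y hy hd => by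
    obtain ⟨b, -, e⟩ := (L.wal n hn).glob y (Sp_mono Set.inter_subset_left hy) hd fun j _ =>
      ⟨pe_card (fun t ht => ((L.cm j).sup t ht).2) hy (by omega),
        pe_card (fun t ht => ((L.cω j).sup t ht).2) hy (by omega)⟩
    exact ⟨b, e⟩) h

/-- a wall is connected -/
theorem t0 (j : Ed) {φ : S → A}
    (h : ∀ a ∈ M.sp (M.tgt j), ∀ b ∈ M.sp (M.tgt j), M.Γ.Adj a b → φ a = φ b) :
    ∀ a ∈ M.sp (M.tgt j), ∀ b ∈ M.sp (M.tgt j), φ a = φ b :=
  const_of M.col_ne (sat_wall L j) (fun y hy hd => by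
    obtain ⟨b, -, e⟩ := (L.tor j).glob y (Sp_mono Set.inter_subset_left hy) hd
      (pe_card (fun t ht => ((L.cm j).sup t ht).2) hy (by omega))
      (pe_card (fun t ht => ((L.cl j).sup t ht).2) hy (by omega))
      (pe_card (fun t ht => ((L.cω j).sup t ht).2) hy (by omega))
    exact ⟨b, e⟩) h

theorem wall_ne (j : Ed) : (M.sp (M.tgt j)).Nonempty := by
  obtain ⟨t, ht, h⟩ := (L.tor j).top ∅ ⟨by simp, by simp, by simp⟩
  have := ((L.tor j).ω_sup t (by rcases h with h | h <;> simp [h])).2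
  exact (Finset.card_pos.1 (by omega)).mono ht.2.2

theorem exists_X : ∃ X : Ed → Finset S →₀ ℤ, ∀ j, X j ∈ Sp (Q M.Γ (M.sp (M.src j)) ∅) ∧
    dq M.Γ M.col (M.sp (M.src j)) (X j) = 0 ∧ ∀ i, M.src i = M.src j →
      pe (L.m i) (X j) = (if i = j then 1 else 0) ∧ pe (L.m (L.op i)) (X j) = 0 ∧
        pe (L.ω i) (X j) = 0 := by
  have := fun j => (L.wal _ (M.ty_src j)).one j rfl
  choose X h1 h2 h3 using this
  exact ⟨X, fun j => ⟨h1 j, h2 j, h3 j⟩⟩

theorem ch_coef {n : Nd} (hn : ¬M.ty n) {φ : S → S → A} (h : Z1 M.Γ (M.sp n : Set S) φ) :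
    ∃ (X : Ed → Finset S →₀ ℤ) (η : Finset S → A), (∀ j ∈ star M n, ∀ i, M.src i = n →
      pe (L.m (L.op i)) (X j) = 0) ∧ ∀ t ∈ Xn M.Γ (M.sp n) 2,
        s1 M.col φ t = dA M.col η t + ∑ j ∈ star M n, X j t • p1 M j (L.m j) φ := by
  obtain ⟨X, hX⟩ := exists_X L
  have w : ∀ j ∈ star M n, M.sp (M.tgt j) ⊆ M.sp n := fun j hj => mem_star.1 hj ▸ L.wall j
  obtain ⟨η, hη⟩ := coef (n := 2) (sat_ch L hn) (star M n) L.m X
    (fun j hj t ht => ((L.cm j).sup t ht).imp_left fun k => Q_mono (w j hj) subset_rfl k)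
    (fun y hy hd => by
      obtain ⟨b, -, e⟩ := (L.wal n hn).glob (y - ∑ j ∈ star M n, pe (L.m j) y • X j)
        (Submodule.sub_mem _ (Sp_mono Set.inter_subset_left hy) (Submodule.sum_mem _ fun j hj =>
          Submodule.smul_mem _ _ (mem_star.1 hj ▸ (hX j).1)))
        (by
          simp only [map_sub, map_sum, map_smul, hd]
          rw [Finset.sum_eq_zero fun j hj => by
            rw [show dq M.Γ M.col (M.sp n) (X j) = 0 from mem_star.1 hj ▸ (hX j).2.1, smul_zero],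
            sub_zero])
        fun i hi => by
          have q : ∀ j ∈ star M n, M.src i = M.src j := fun j hj =>
            (show M.src i = n from hi).trans (mem_star.1 hj).symm
          simp only [map_sub, map_sum, map_smul, smul_eq_mul]
          constructor
          · rw [Finset.sum_congr rfl fun j hj => by rw [((hX j).2.2 i (q j hj)).1]]
            simp [mem_star.2 hi]
          · rw [Finset.sum_eq_zero fun j hj => by rw [((hX j).2.2 i (q j hj)).2.2, mul_zero],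
              pe_card (fun t ht => ((L.cω i).sup t ht).2) hy (by omega), sub_zero]
      exact ⟨b, by rw [e, sub_add_cancel]⟩) (h.closed M.col_ne)
  refine ⟨X, η, fun j hj i hi => ((hX j).2.2 i (hi.trans (mem_star.1 hj).symm)).2.1, fun t ht => ?_⟩
  rw [hη t ht]
  exact congrArg _ (Finset.sum_congr rfl fun j hj => by
    rw [pA_mono (fun t ht => ((L.cm j).sup t ht).1.2.2) (w j hj)]; rfl)

/-- `H¹` of a chamber is detected by the meridians -/
theorem c1 {n : Nd} (hn : ¬M.ty n) {φ : S → S → A} (h : Z1 M.Γ (M.sp n : Set S) φ)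
    (hp : ∀ e, M.src e = n → p1 M e (L.m e) φ = 0) :
    ∃ η : S → A, ∀ a ∈ M.sp n, ∀ b ∈ M.sp n, Cl M.Γ a b → φ a b = η b - η a := by
  obtain ⟨X, η, -, hη⟩ := ch_coef L hn h
  exact ⟨_, h.of_dA M.col_ne (η := η) fun t ht => by
    rw [hη t ht, Finset.sum_eq_zero fun j hj => by rw [hp j (mem_star.1 hj), smul_zero], add_zero]⟩

/-- the longitudes bound in the chamber -/
theorem lon (e : Ed) {φ : S → S → A} (h : Z1 M.Γ (M.sp (M.src e) : Set S) φ) :
    p1 M e (L.m (L.op e)) φ = 0 := by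
  obtain ⟨X, η, hX, hη⟩ := ch_coef L (M.ty_src e) h
  have c := L.cl e
  rw [p1, pA_congr fun t ht => hη t (mem_Xn.2 ((c.sup t ht).imp_left fun k =>
    Q_mono (L.wall e) subset_rfl k)), pA_add, pA_dA (fun t ht => (c.sup t ht).1) c.cyc, pA_sum, zero_add]
  exact Finset.sum_eq_zero fun j hj => by
    rw [← pe_pA fun t ht => (c.sup t ht).1.2.2, hX j hj e rfl, zero_smul]

/-- `H¹` of a wall is detected by meridian and longitude -/
theorem t1 (e : Ed) {φ : S → S → A} (h : Z1 M.Γ (M.sp (M.tgt e) : Set S) φ)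
    (hm : p1 M e (L.m e) φ = 0) (hl : p1 M e (L.m (L.op e)) φ = 0) :
    ∃ η : S → A, ∀ a ∈ M.sp (M.tgt e), ∀ b ∈ M.sp (M.tgt e), Cl M.Γ a b → φ a b = η b - η a := by
  obtain ⟨X, hX⟩ := exists_X L
  have ne := (L.op_ne e).symm
  have d : ∀ j, M.tgt j = M.tgt e →
      dq M.Γ M.col (M.sp (M.tgt e)) (rs (Q M.Γ (M.sp (M.tgt e)) ∅) (X j)) = 0 := fun j hj => by
    rw [← rs_dq (hj ▸ L.wall j), (hX j).2.1, map_zero]
  obtain ⟨a1, a2, a3⟩ := (hX e).2.2 e rfl
  obtain ⟨b1, b2, b3⟩ := (hX (L.op e)).2.2 (L.op e) rfl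
  rw [if_pos rfl] at a1 b1
  rw [L.op_op] at b2
  rw [L.pe_op, neg_eq_zero] at b3
  obtain ⟨η, hη⟩ := coef (n := 2) (sat_wall L e) {e, L.op e} L.m
    (fun j => rs (Q M.Γ (M.sp (M.tgt e)) ∅) (X j))
    (fun j hj t ht => by
      rcases Finset.mem_insert.1 hj with rfl | hj
      · exact (L.cm j).sup t ht
      · rw [Finset.mem_singleton.1 hj] at ht; exact (L.cl e).sup t ht)
    (fun y hy hd => by
      rw [Finset.sum_pair ne]
      obtain ⟨b, -, e⟩ := (L.tor e).glob (y - (pe (L.m e) y • rs (Q M.Γ (M.sp (M.tgt e)) ∅) (X e) +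
          pe (L.m (L.op e)) y • rs (Q M.Γ (M.sp (M.tgt e)) ∅) (X (L.op e))))
        (Submodule.sub_mem _ (Sp_mono Set.inter_subset_left hy) (Submodule.add_mem _
          (Submodule.smul_mem _ _ (rs_mem _ _)) (Submodule.smul_mem _ _ (rs_mem _ _))))
        (by simp only [map_sub, map_add, map_smul, hd, d e rfl, d _ (L.tgt_op e)]; simp)
        (by simp only [map_sub, map_add, map_smul, (L.cm e).rs, a1, b2]; simp)
        (by simp only [map_sub, map_add, map_smul, (L.cl e).rs, a2, b1]; simp)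
        (by
          simp only [map_sub, map_add, map_smul, (L.cω e).rs, a3, b3,
            pe_card (fun t ht => ((L.cω e).sup t ht).2) hy (by omega)]
          simp)
      exact ⟨b, by rw [e, sub_add_cancel]⟩) (h.closed M.col_ne)
  exact ⟨_, h.of_dA M.col_ne (η := η) fun t ht => by
    unfold p1 at hm hl
    rw [hη t ht, Finset.sum_pair ne, hm, hl]; simp⟩

/-- `H²` of a wall is detected by the fundamental class -/
theorem t2 (e : Ed) {φ : S → S → S → A} (h : Z2 M.Γ (M.sp (M.tgt e) : Set S) φ)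
    (hω : p2 M e (L.ω e) φ = 0) : ∃ ψ : S → S → A, ∀ a ∈ M.sp (M.tgt e), ∀ b ∈ M.sp (M.tgt e),
      ∀ c ∈ M.sp (M.tgt e), Cl M.Γ a b → Cl M.Γ a c → Cl M.Γ b c → φ a b c = ψ b c - ψ a c + ψ a b := by
  obtain ⟨t, ht, ho⟩ := (L.tor e).top ∅ ⟨by simp, by simp, by simp⟩
  have n0 : L.ω e t ≠ 0 := by rcases ho with h | h <;> simp [h]
  have c3 := ((L.cω e).sup t n0).2
  have q : ∀ {z}, Loc.Cyc M e z 2 → z t = 0 := fun c => by_contra fun k => by
    have := (c.sup t k).2; omega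
  obtain ⟨η, hη⟩ := coef (n := 3) (sat_wall L e) {e} L.ω (fun _ => single t (L.ω e t))
    (fun j hj t ht => by rw [Finset.mem_singleton.1 hj] at ht; exact (L.cω e).sup t ht)
    (fun y hy hd => by
      rw [Finset.sum_singleton]
      obtain ⟨b, -, e⟩ := (L.tor e).glob (y - pe (L.ω e) y • single t (L.ω e t))
        (Submodule.sub_mem _ (Sp_mono Set.inter_subset_left hy)
          (Submodule.smul_mem _ _ (single_mem ht _)))
        (by rw [map_sub, map_smul, hd, L.dq_tri n0]; simp)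
        (by rw [map_sub, map_smul, pe_card (fun t ht => ((L.cm e).sup t ht).2) hy (by omega)]
            simp [q (L.cm e)])
        (by rw [map_sub, map_smul, pe_card (fun t ht => ((L.cl e).sup t ht).2) hy (by omega)]
            simp [q (L.cl e)])
        (by rw [map_sub, map_smul]; rcases ho with h | h <;> simp [h])
      exact ⟨b, by rw [e, sub_add_cancel]⟩) (h.closed M.col_ne)
  exact h.ord M.col_ne (η := fun a b => η {a, b}) fun a ha b hb c hc h1 h2 h3 l l' => by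
    unfold p2 at hω
    rw [← s2_tri φ l l', hη _ (tri_mem ha hb hc h1 h2 h3), dA_tri _ l l', Finset.sum_singleton,
      hω, smul_zero, add_zero]

/-- span form on a wall -/
theorem t1_span (e : Ed) {φ : S → S → A} (h : Z1 M.Γ (M.sp (M.tgt e) : Set S) φ) {α β : S → S → ℤ}
    (hα : Z1 M.Γ (M.sp (M.tgt e) : Set S) α) (hβ : Z1 M.Γ (M.sp (M.tgt e) : Set S) β)
    (a1 : p1 M e (L.m e) α = 1) (a2 : p1 M e (L.m (L.op e)) α = 0)
    (b1 : p1 M e (L.m e) β = 0) (b2 : p1 M e (L.m (L.op e)) β = 1) :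
    ∃ η : S → A, ∀ a ∈ M.sp (M.tgt e), ∀ b ∈ M.sp (M.tgt e), Cl M.Γ a b → φ a b = η b - η a +
      α a b • p1 M e (L.m e) φ + β a b • p1 M e (L.m (L.op e)) φ := by
  obtain ⟨η, k⟩ := t1 L e (h.sub_sum (B := Finset.univ) (x := fun j : Bool => cond j α β)
    (fun j _ => by cases j; exacts [hβ, hα])
    fun j => cond j (p1 M e (L.m e) φ) (p1 M e (L.m (L.op e)) φ))
    (by rw [p1_sub_sum]; simp [a1, b1]) (by rw [p1_sub_sum]; simp [a2, b2])
  exact ⟨η, fun a ha b hb c => by rw [← k a ha b hb c]; simp [add_assoc]⟩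

theorem t2_span (e : Ed) {φ : S → S → S → A} (h : Z2 M.Γ (M.sp (M.tgt e) : Set S) φ)
    {γ : S → S → S → ℤ} (hγ : Z2 M.Γ (M.sp (M.tgt e) : Set S) γ) {u : ℤ}
    (g : p2 M e (L.ω e) γ * u = 1) : ∃ ψ : S → S → A, ∀ a ∈ M.sp (M.tgt e), ∀ b ∈ M.sp (M.tgt e),
      ∀ c ∈ M.sp (M.tgt e), Cl M.Γ a b → Cl M.Γ a c → Cl M.Γ b c →
        φ a b c = ψ b c - ψ a c + ψ a b + γ a b c • u • p2 M e (L.ω e) φ := by
  obtain ⟨ψ, k⟩ := t2 L e (φ := fun a b c => φ a b c - γ a b c • u • p2 M e (L.ω e) φ)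
    (fun a ha b hb c hc d hd h1 h2 h3 h4 h5 h6 => by
      rw [sub_add_sub_comm, sub_add_sub_comm, ← add_smul, ← add_smul,
        h a ha b hb c hc d hd h1 h2 h3 h4 h5 h6, hγ a ha b hb c hc d hd h1 h2 h3 h4 h5 h6])
    (by
      have := pA_sum (z := L.ω e) (U := M.sp (M.tgt e)) {()} (fun _ => s2 M.col γ)
        fun _ => u • p2 M e (L.ω e) φ
      simp only [Finset.sum_singleton] at this
      rw [p2, pA_congr fun t _ => s2_sub _ _ _ t, pA_sub, this, smul_smul,
        show pA _ _ _ * u = 1 from g, one_smul]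
      exact sub_self _)
  exact ⟨ψ, fun a ha b hb c hc h1 h2 h3 => by rw [← k a ha b hb c hc h1 h2 h3, sub_add_cancel]⟩

end Crest.Agent.N255.Md

end
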