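import Crest.Agent.N255.Ch.Tr

/-!
# Row 255 (helper12): cochains on cliques with arbitrary coefficients, ordered cochains
-/

set_option autoImplicit false
open Finsupp

noncomputable section

namespace Crest.Agent.N255.Md

open Ch

theorem exists_ginv {M N : Type} [AddCommGroup M] [AddCommGroup N] [Module.Finite ℤ M]
    [Module.IsTorsionFree ℤ M] (f : N →ₗ[ℤ] M)
    (sat : ∀ (c : ℤ) y, c • y ∈ LinearMap.range f → c = 0 ∨ y ∈ LinearMap.range f) :
    ∃ g : M →ₗ[ℤ] N, ∀ x, f (g (f x)) = f x := by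
  have : Module.IsTorsionFree ℤ (M ⧸ LinearMap.range f) :=
    Module.IsTorsionFree.of_smul_eq_zero fun c y h => by
      obtain ⟨y, rfl⟩ := Submodule.Quotient.mk_surjective _ y
      rw [← Submodule.Quotient.mk_smul, Submodule.Quotient.mk_eq_zero] at h
      exact (sat c y h).imp_right (Submodule.Quotient.mk_eq_zero _).2
  obtain ⟨s, hs⟩ := Module.projective_lifting_property (LinearMap.range f).mkQ LinearMap.id
    (Submodule.mkQ_surjective _)
  have hρ : ∀ y, (LinearMap.id - s ∘ₗ (LinearMap.range f).mkQ : M →ₗ[ℤ] M) y ∈ LinearMap.range f :=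
    fun y => by
      rw [← Submodule.Quotient.mk_eq_zero, ← Submodule.mkQ_apply, LinearMap.sub_apply, map_sub,
        LinearMap.comp_apply, ← LinearMap.comp_apply _ s, hs]
      simp
  obtain ⟨g, hg⟩ := Module.projective_lifting_property f.rangeRestrict (LinearMap.codRestrict _ _ hρ)
    f.surjective_rangeRestrict
  refine ⟨g, fun x => (congrArg Subtype.val (LinearMap.congr_fun hg (f x))).trans ?_⟩
  have : (LinearMap.range f).mkQ (f x) = 0 := (Submodule.Quotient.mk_eq_zero _).2 ⟨x, rfl⟩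
  simp [this]

variable {S K : Type} [DecidableEq S] [LinearOrder K] {Γ : SimpleGraph S} {col : S → K}
  {U T : Finset S} {A : Type} [AddCommGroup A]

omit [DecidableEq S] in
theorem Q_finite (U : Finset S) : (Q Γ U ∅).Finite :=
  U.powerset.finite_toSet.subset fun _ h => Finset.mem_coe.2 (Finset.mem_powerset.2 h.2.2)

theorem rs_card (n : ℕ) (a : Finset S →₀ ℤ) :
    dq Γ col U (rs {t | t.card = n} a) = rs {t | t.card = n + 1} (dq Γ col U a) := by
  ext t
  classical
  by_cases h : t.card = n + 1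
  · rw [rs_of_mem (U := {t : Finset S | t.card = n + 1}) _ h, dq_apply, dq_apply]
    refine if_congr Iff.rfl (Finset.sum_congr rfl fun s hs => ?_) rfl
    rw [rs_of_mem (U := {t : Finset S | t.card = n}) _
      (show _ = n by rw [Finset.card_erase_of_mem (Finset.mem_inter.1 hs).1, h]; rfl)]
  · rw [rs_of_notMem (U := {t : Finset S | t.card = n + 1}) _ h, dq_apply]
    split_ifs
    · refine Finset.sum_eq_zero fun s hs => ?_
      rw [rs_of_notMem (U := {t : Finset S | t.card = n}) _ fun e => h ?_, mul_zero]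
      rw [← Finset.card_erase_add_one (Finset.mem_inter.1 hs).1, show _ = n from e]
    · rfl

/-- the image of the coboundary is saturated -/
def Sat (Γ : SimpleGraph S) (col : S → K) (U : Finset S) : Prop :=
  ∀ (c : ℤ), ∀ y ∈ Sp (Q Γ U ∅), ∀ a ∈ Sp (Q Γ U ∅), dq Γ col U a = c • y → c ≠ 0 →
    ∃ b ∈ Sp (Q Γ U ∅), dq Γ col U b = y

theorem Sat.ginv (h : Sat Γ col U) (n : ℕ) : ∃ g : (Finset S →₀ ℤ) →ₗ[ℤ] (Finset S →₀ ℤ),
    (∀ y, g y ∈ Sp (Q Γ U ∅ ∩ {t | t.card = n})) ∧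
      ∀ x ∈ Sp (Q Γ U ∅ ∩ {t | t.card = n}), dq Γ col U (g (dq Γ col U x)) = dq Γ col U x := by
  have := (Q_finite (Γ := Γ) U).to_subtype
  have : Module.Finite ℤ (Sp (Q Γ U ∅)) := Module.Finite.equiv (supportedEquivFinsupp _).symm
  obtain ⟨g, hg⟩ := exists_ginv ((dq Γ col U).restrict (cl_Q U ∅)) fun c y ⟨a, ha⟩ =>
    or_iff_not_imp_left.2 fun hc => by
      obtain ⟨b, hb, e⟩ := h c y y.2 a a.2 (congrArg Subtype.val ha) hc
      exact ⟨⟨b, hb⟩, Subtype.ext e⟩
  refine ⟨rs {t | t.card = n} ∘ₗ (Sp _).subtype ∘ₗ g ∘ₗ LinearMap.codRestrict _ _ (rs_mem (Q Γ U ∅)),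
    fun y => rs_mem_inter _ (g _).2, fun x hx => ?_⟩
  have h1 : x ∈ Sp (Q Γ U ∅) := Sp_mono Set.inter_subset_left hx
  have e : LinearMap.codRestrict _ _ (rs_mem (Q Γ U ∅)) (dq Γ col U x) =
      (dq Γ col U).restrict (cl_Q U ∅) ⟨x, h1⟩ := Subtype.ext (rs_eq_self (cl_Q U ∅ x h1))
  simp only [LinearMap.comp_apply, rs_card, e]
  rw [show dq Γ col U ((Sp _).subtype (g _)) = dq Γ col U x from congrArg Subtype.val (hg ⟨x, h1⟩),
    ← rs_card, rs_eq_self (Sp_mono Set.inter_subset_right hx)]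

variable (col) in
/-- the coboundary with coefficients -/
def dA (a : Finset S → A) (t : Finset S) : A := ∑ s ∈ t, eps col s (t.erase s) • a (t.erase s)

/-- periods with coefficients -/
def pA (z : Finset S → ℤ) (U : Finset S) (a : Finset S → A) : A := ∑ t ∈ U.powerset, z t • a t

omit [DecidableEq S] in
theorem pA_mono {z : Finset S → ℤ} (h : ∀ t, z t ≠ 0 → t ⊆ T) (hT : T ⊆ U) (a : Finset S → A) :
    pA z U a = pA z T a :=
  (Finset.sum_subset (Finset.powerset_mono.2 hT) fun t _ ht => by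
    rw [show z t = 0 from by_contra fun e => ht (Finset.mem_powerset.2 (h t e)), zero_smul]).symm

open Classical in
/-- the cliques with `n` elements -/
def Xn (Γ : SimpleGraph S) (U : Finset S) (n : ℕ) : Finset (Finset S) :=
  U.powerset.filter fun t => Γ.IsClique (t : Set S) ∧ t.card = n

theorem mem_Xn {n : ℕ} {t : Finset S} : t ∈ Xn Γ U n ↔ t ∈ Q Γ U ∅ ∩ {t | t.card = n} := by
  simp [Xn, Q, and_comm, and_left_comm]

theorem sum_dq {n : ℕ} {a : Finset S → A} (ha : ∀ v ∈ Xn Γ U (n + 1), dA col a v = 0)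
    (l : (Finset S →₀ ℤ) →ₗ[ℤ] ℤ) : ∑ t ∈ Xn Γ U n, l (dq Γ col U (single t 1)) • a t = 0 := by
  classical
  have e : ∀ t ∈ Xn Γ U n, l (dq Γ col U (single t 1)) =
      ∑ v ∈ Xn Γ U (n + 1), dq Γ col U (single t 1) v * l (single v 1) := fun t ht => by
    have : dq Γ col U (single t 1) =
        ∑ v ∈ Xn Γ U (n + 1), dq Γ col U (single t 1) v • single v (1 : ℤ) := by
      ext v
      rw [Finsupp.finsetSum_apply]
      simp only [Finsupp.smul_apply, single_apply, smul_eq_mul, mul_ite, mul_one, mul_zero,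
        Finset.sum_ite_eq']
      split_ifs with h
      · rfl
      by_contra h'
      obtain ⟨hc, s, hs, hn, rfl⟩ := dq_ne h'
      exact h (mem_Xn.2 ⟨⟨hc, Finset.empty_subset _, Finset.insert_subset hs (mem_Xn.1 ht).1.2.2⟩,
        by rw [Set.mem_ofPred_eq, Finset.card_insert_of_notMem hn, show t.card = n from (mem_Xn.1 ht).2]⟩)
    conv_lhs => rw [this]
    simp only [map_sum, map_smul, smul_eq_mul]
  rw [Finset.sum_congr rfl fun t ht => by rw [e t ht, Finset.sum_smul], Finset.sum_comm]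
  refine Finset.sum_eq_zero fun v hv => ?_
  have hv' := mem_Xn.1 hv
  simp only [mul_comm _ (l _), mul_smul, ← Finset.smul_sum]
  rw [show ∑ t ∈ Xn Γ U n, dq Γ col U (single t 1) v • a t = dA col a v from ?_, ha v hv, smul_zero]
  simp only [dq_apply, if_pos hv'.1.1, Finset.inter_eq_left.2 hv'.1.2.2, Finset.sum_smul]
  rw [Finset.sum_comm]
  refine Finset.sum_congr rfl fun s hs => ?_
  simp only [single_apply, mul_ite, mul_one, mul_zero, ite_smul, zero_smul, Finset.sum_ite_eq']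
  exact if_pos (mem_Xn.2 ⟨Q_erase hv'.1 s, by
    rw [Set.mem_ofPred_eq, Finset.card_erase_of_mem hs, show v.card = n + 1 from hv'.2]; rfl⟩)

/-- **change of coefficients** -/
theorem coef (sat : Sat Γ col U) {J : Type} (B : Finset J)
    (z : J → Finset S → ℤ) (x : J → Finset S →₀ ℤ) {n : ℕ}
    (hz : ∀ j ∈ B, ∀ t, z j t ≠ 0 → t ∈ Q Γ U ∅ ∧ t.card = n)
    (span : ∀ y ∈ Sp (Q Γ U ∅ ∩ {t | t.card = n}), dq Γ col U y = 0 →
      ∃ b, y = dq Γ col U b + ∑ j ∈ B, pe (z j) y • x j)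
    {a : Finset S → A} (ha : ∀ v ∈ Xn Γ U (n + 1), dA col a v = 0) :
    ∃ η : Finset S → A, ∀ t ∈ Xn Γ U n, a t = dA col η t + ∑ j ∈ B, x j t • pA (z j) U a := by
  classical
  obtain ⟨g, g1, g2⟩ := sat.ginv n
  have : ∀ t ∈ Xn Γ U n, ∃ b, single t 1 - g (dq Γ col U (single t 1)) = dq Γ col U b +
      ∑ j ∈ B, pe (z j) (single t 1 - g (dq Γ col U (single t 1))) • x j := fun t ht =>
    span _ (Submodule.sub_mem _ (single_mem (mem_Xn.1 ht) 1) (g1 _))
      (by rw [map_sub, g2 _ (single_mem (mem_Xn.1 ht) 1), sub_self])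
  choose! h hh using this
  refine ⟨fun u => ∑ t ∈ Xn Γ U n, h t u • a t, fun t' ht' => ?_⟩
  have ht'' := mem_Xn.1 ht'
  have e0 : a t' = ∑ t ∈ Xn Γ U n, (single t 1 - g (dq Γ col U (single t 1)) : Finset S →₀ ℤ) t' • a t := by
    simp only [Finsupp.sub_apply, sub_smul, Finset.sum_sub_distrib]
    rw [show ∑ t ∈ Xn Γ U n, g (dq Γ col U (single t 1)) t' • a t = 0 from
      sum_dq ha (lapply t' ∘ₗ g), sub_zero]
    simp only [single_apply, ite_smul, one_smul, zero_smul, Finset.sum_ite_eq', if_pos ht']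
  rw [e0, Finset.sum_congr rfl fun t ht => by rw [hh t ht]]
  simp only [Finsupp.add_apply, add_smul, Finset.sum_add_distrib]
  congr 1
  · simp only [dq_apply, if_pos ht''.1.1, Finset.inter_eq_left.2 ht''.1.2.2, Finset.sum_smul, dA,
      Finset.smul_sum, mul_smul]
    exact Finset.sum_comm
  · simp only [Finsupp.finsetSum_apply, Finset.sum_smul]
    rw [Finset.sum_comm]
    refine Finset.sum_congr rfl fun j hj => ?_
    simp only [Finsupp.smul_apply, smul_eq_mul, mul_comm _ (x j t'), mul_smul, ← Finset.smul_sum]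
    simp only [map_sub, sub_smul, Finset.sum_sub_distrib]
    rw [show ∑ t ∈ Xn Γ U n, pe (z j) (g (dq Γ col U (single t 1))) • a t = 0 from
      sum_dq ha (pe (z j) ∘ₗ g), sub_zero]
    simp only [linearCombination_single, one_smul]
    congr 1
    refine Finset.sum_subset (Finset.filter_subset _ _) fun t _ ht => ?_
    rw [show z j t = 0 from by_contra fun e => ht (mem_Xn.2 (hz j hj t e)), zero_smul]

/-! ### ordered cochains -/

/-- equal or adjacent -/
def Cl (Γ : SimpleGraph S) (a b : S) : Prop := a = b ∨ Γ.Adj a b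

omit [DecidableEq S] in
theorem Cl.refl (a : S) : Cl Γ a a := Or.inl rfl

omit [DecidableEq S] in
theorem Cl.symm {a b : S} (h : Cl Γ a b) : Cl Γ b a := h.imp Eq.symm SimpleGraph.Adj.symm

/-- closed one-cochains on `U` -/
def Z1 (Γ : SimpleGraph S) (U : Set S) (φ : S → S → A) : Prop :=
  ∀ a ∈ U, ∀ b ∈ U, ∀ c ∈ U, Cl Γ a b → Cl Γ a c → Cl Γ b c → φ a c = φ a b + φ b c

/-- closed two-cochains on `U` -/
def Z2 (Γ : SimpleGraph S) (U : Set S) (φ : S → S → S → A) : Prop :=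
  ∀ a ∈ U, ∀ b ∈ U, ∀ c ∈ U, ∀ d ∈ U, Cl Γ a b → Cl Γ a c → Cl Γ a d → Cl Γ b c → Cl Γ b d →
    Cl Γ c d → φ b c d + φ a b d = φ a c d + φ a b c

variable (col) in
/-- the value on the sorted pair -/
def s1 (φ : S → S → A) (t : Finset S) : A := ∑ a ∈ t, ∑ b ∈ t, if col a < col b then φ a b else 0

variable (col) in
/-- the value on the sorted triple -/
def s2 (φ : S → S → S → A) (t : Finset S) : A :=
  ∑ a ∈ t, ∑ b ∈ t, ∑ c ∈ t, if col a < col b ∧ col b < col c then φ a b c else 0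

theorem s1_pair (φ : S → S → A) {a b : S} (h : col a < col b) : s1 col φ {a, b} = φ a b := by
  have n : a ≠ b := fun e => h.ne (e ▸ rfl)
  simp [s1, Finset.sum_pair n, h, h.not_gt]

theorem s2_tri (φ : S → S → S → A) {a b c : S} (h : col a < col b) (h' : col b < col c) :
    s2 col φ {a, b, c} = φ a b c := by
  have h'' := h.trans h'
  have n1 : a ≠ b := fun e => h.ne (e ▸ rfl)
  have n2 : b ≠ c := fun e => h'.ne (e ▸ rfl)
  have n3 : a ≠ c := fun e => h''.ne (e ▸ rfl)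
  have m : a ∉ ({b, c} : Finset S) := by simp [n1, n3]
  simp [s2, Finset.sum_insert m, Finset.sum_pair n2, h, h', h'', h.not_gt, h'.not_gt, h''.not_gt]

theorem dA_one (η : Finset S → A) (a : S) : dA col η {a} = η ∅ := by simp [dA, eps]

theorem dA_pair (η : Finset S → A) {a b : S} (h : col a < col b) :
    dA col η {a, b} = η {b} - η {a} := by
  have n : a ≠ b := fun e => h.ne (e ▸ rfl)
  have e1 : ({a, b} : Finset S).erase a = {b} := Finset.erase_insert (by simpa using n)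
  have e2 : ({a, b} : Finset S).erase b = {a} := by rw [Finset.pair_comm]; exact Finset.erase_insert (by simpa using n.symm)
  rw [dA, Finset.sum_pair n, e1, e2]
  simp [eps, Finset.filter_singleton, h, h.not_gt, sub_eq_add_neg]

theorem dA_tri (η : Finset S → A) {a b c : S} (h : col a < col b) (h' : col b < col c) :
    dA col η {a, b, c} = η {b, c} - η {a, c} + η {a, b} := by
  have h'' := h.trans h'
  have n1 : a ≠ b := fun e => h.ne (e ▸ rfl)
  have n2 : b ≠ c := fun e => h'.ne (e ▸ rfl)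
  have n3 : a ≠ c := fun e => h''.ne (e ▸ rfl)
  have m : a ∉ ({b, c} : Finset S) := by simp [n1, n3]
  have e1 : ({a, b, c} : Finset S).erase a = {b, c} := Finset.erase_insert m
  have e2 : ({a, b, c} : Finset S).erase b = {a, c} := by ext; simp; grind
  have e3 : ({a, b, c} : Finset S).erase c = {a, b} := by ext; simp; grind
  rw [dA, Finset.sum_insert m, Finset.sum_pair n2, e1, e2, e3]
  simp [eps, Finset.filter_insert, Finset.filter_singleton, h, h', h'', h.not_gt, h'.not_gt,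
    h''.not_gt, sub_eq_add_neg, add_assoc, Finset.card_pair n1]

theorem dA_tet (η : Finset S → A) {a b c d : S} (h : col a < col b) (h' : col b < col c)
    (k : col c < col d) :
    dA col η {a, b, c, d} = η {b, c, d} - η {a, c, d} + η {a, b, d} - η {a, b, c} := by
  have h'' := h.trans h'
  have k' := h'.trans k
  have k'' := h.trans k'
  have n : ∀ {x y : S}, col x < col y → x ≠ y := fun h e => h.ne (e ▸ rfl)
  have m : a ∉ ({b, c, d} : Finset S) := by simp [n h, n h'', n k'']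
  have m' : b ∉ ({c, d} : Finset S) := by simp [n h', n k']
  have m'' : a ∉ ({b, c} : Finset S) := by simp [n h, n h'']
  have := n h; have := n h'; have := n k; have := n h''; have := n k'; have := n k''
  have e1 : ({a, b, c, d} : Finset S).erase a = {b, c, d} := Finset.erase_insert m
  have e2 : ({a, b, c, d} : Finset S).erase b = {a, c, d} := by ext; simp; grind
  have e3 : ({a, b, c, d} : Finset S).erase c = {a, b, d} := by ext; simp; grind
  have e4 : ({a, b, c, d} : Finset S).erase d = {a, b, c} := by ext; simp; grind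
  rw [dA, Finset.sum_insert m, Finset.sum_insert m', Finset.sum_pair (n k), e1, e2, e3, e4]
  simp [eps, Finset.filter_insert, Finset.filter_singleton, h, h', h'', h.not_gt, h'.not_gt,
    h''.not_gt, k, k', k'', k.not_gt, k'.not_gt, k''.not_gt, sub_eq_add_neg, add_assoc,
    Finset.card_pair (n h), Finset.card_insert_of_notMem m'', Finset.card_pair (n h'), pow_succ]

variable (hcol : ∀ s t, Γ.Adj s t → col s ≠ col t)
include hcol

omit [DecidableEq S] in
theorem lt_or {a b : S} (h : Cl Γ a b) : a = b ∨ col a < col b ∨ col b < col a :=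
  h.imp_right fun h => lt_or_gt_of_ne (hcol a b h)

theorem exists_min {n : ℕ} {t : Finset S} (h : t ∈ Xn Γ U (n + 1)) :
    ∃ a u, u ∈ Xn Γ U n ∧ t = insert a u ∧ a ∈ U ∧ ∀ b ∈ u, Γ.Adj a b ∧ col a < col b := by
  obtain ⟨h1, h2⟩ := mem_Xn.1 h
  obtain ⟨a, ha, hm⟩ := t.exists_min_image col (Finset.card_pos.1 (by rw [show t.card = _ from h2]; omega))
  refine ⟨a, t.erase a, mem_Xn.2 ⟨Q_erase h1 a, by
    rw [Set.mem_ofPred_eq, Finset.card_erase_of_mem ha, show t.card = _ from h2]; rfl⟩,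
    (Finset.insert_erase ha).symm, h1.2.2 ha, fun b hb => ?_⟩
  have hb' := Finset.mem_erase.1 hb
  have := h1.1 ha hb'.2 hb'.1.symm
  exact ⟨this, (hm b hb'.2).lt_of_ne (hcol a b this)⟩

theorem X1 {t : Finset S} (h : t ∈ Xn Γ U 1) : ∃ a ∈ U, t = {a} := by
  obtain ⟨a, u, hu, rfl, ha, -⟩ := exists_min hcol h
  obtain rfl := Finset.card_eq_zero.1 (mem_Xn.1 hu).2
  exact ⟨a, ha, rfl⟩

theorem X2 {t : Finset S} (h : t ∈ Xn Γ U 2) :
    ∃ a ∈ U, ∃ b ∈ U, Γ.Adj a b ∧ col a < col b ∧ t = {a, b} := by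
  obtain ⟨a, u, hu, rfl, ha, k⟩ := exists_min hcol h
  obtain ⟨b, hb, rfl⟩ := X1 hcol hu
  exact ⟨a, ha, b, hb, (k b (by simp)).1, (k b (by simp)).2, rfl⟩

theorem X3 {t : Finset S} (h : t ∈ Xn Γ U 3) : ∃ a ∈ U, ∃ b ∈ U, ∃ c ∈ U, Γ.Adj a b ∧ Γ.Adj a c ∧
    Γ.Adj b c ∧ col a < col b ∧ col b < col c ∧ t = {a, b, c} := by
  obtain ⟨a, u, hu, rfl, ha, k⟩ := exists_min hcol h
  obtain ⟨b, hb, c, hc, h1, h2, rfl⟩ := X2 hcol hu
  exact ⟨a, ha, b, hb, c, hc, (k b (by simp)).1, (k c (by simp)).1, h1, (k b (by simp)).2, h2, rfl⟩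

theorem X4 {t : Finset S} (h : t ∈ Xn Γ U 4) : ∃ a ∈ U, ∃ b ∈ U, ∃ c ∈ U, ∃ d ∈ U, Γ.Adj a b ∧
    Γ.Adj a c ∧ Γ.Adj a d ∧ Γ.Adj b c ∧ Γ.Adj b d ∧ Γ.Adj c d ∧ col a < col b ∧ col b < col c ∧
    col c < col d ∧ t = {a, b, c, d} := by
  obtain ⟨a, u, hu, rfl, ha, k⟩ := exists_min hcol h
  obtain ⟨b, hb, c, hc, d, hd, h1, h2, h3, h4, h5, rfl⟩ := X3 hcol hu
  exact ⟨a, ha, b, hb, c, hc, d, hd, (k b (by simp)).1, (k c (by simp)).1, (k d (by simp)).1, h1, h2,
    h3, (k b (by simp)).2, h4, h5, rfl⟩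

omit hcol in
theorem pair_mem {a b : S} (ha : a ∈ U) (hb : b ∈ U) (h : Γ.Adj a b) : {a, b} ∈ Xn Γ U 2 :=
  mem_Xn.2 ⟨⟨by simpa using SimpleGraph.isClique_pair.2 fun _ => h, Finset.empty_subset _,
    Finset.insert_subset ha (by simpa using hb)⟩, Finset.card_pair h.ne⟩

omit hcol in
theorem tri_mem {a b c : S} (ha : a ∈ U) (hb : b ∈ U) (hc : c ∈ U) (h : Γ.Adj a b) (h' : Γ.Adj a c)
    (h'' : Γ.Adj b c) : {a, b, c} ∈ Xn Γ U 3 := by
  have := SimpleGraph.is3Clique_triple_iff.2 ⟨h, h', h''⟩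
  exact mem_Xn.2 ⟨⟨this.1, Finset.empty_subset _,
    Finset.insert_subset ha (Finset.insert_subset hb (by simpa using hc))⟩, this.2⟩

theorem Z1.closed {φ : S → S → A} (h : Z1 Γ (U : Set S) φ) : ∀ v ∈ Xn Γ U 3, dA col (s1 col φ) v = 0 := by
  intro v hv
  obtain ⟨a, ha, b, hb, c, hc, h1, h2, h3, l1, l2, rfl⟩ := X3 hcol hv
  rw [dA_tri _ l1 l2, s1_pair _ l1, s1_pair _ l2, s1_pair _ (l1.trans l2),
    h a ha b hb c hc (.inr h1) (.inr h2) (.inr h3)]
  abel

theorem Z2.closed {φ : S → S → S → A} (h : Z2 Γ (U : Set S) φ) :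
    ∀ v ∈ Xn Γ U 4, dA col (s2 col φ) v = 0 := by
  intro v hv
  obtain ⟨a, ha, b, hb, c, hc, d, hd, h1, h2, h3, h4, h5, h6, l1, l2, l3, rfl⟩ := X4 hcol hv
  rw [dA_tet _ l1 l2 l3, s2_tri _ l2 l3, s2_tri _ (l1.trans l2) l3, s2_tri _ l1 (l2.trans l3),
    s2_tri _ l1 l2, sub_add_eq_add_sub,
    h a ha b hb c hc d hd (.inr h1) (.inr h2) (.inr h3) (.inr h4) (.inr h5) (.inr h6)]
  abel

omit [DecidableEq S] in
/-- a closed one-cochain is determined by its values on sorted edges -/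
theorem Z1.ord {V : Set S} {φ : S → S → A} (h : Z1 Γ V φ) {η : S → A}
    (k : ∀ a ∈ V, ∀ b ∈ V, Γ.Adj a b → col a < col b → φ a b = η b - η a) :
    ∀ a ∈ V, ∀ b ∈ V, Cl Γ a b → φ a b = η b - η a := by
  have z : ∀ a ∈ V, φ a a = 0 := fun a ha => by
    simpa using h a ha a ha a ha (.refl a) (.refl a) (.refl a)
  intro a ha b hb c
  rcases c with rfl | c
  · rw [z a ha, sub_self]
  rcases lt_or_gt_of_ne (hcol a b c) with l | l
  · exact k a ha b hb c l
  · have := h a ha b hb a ha (.inr c) (.refl a) (.inr c.symm)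
    rw [z a ha, k b hb a ha c.symm l] at this
    rw [eq_neg_of_add_eq_zero_left this.symm, neg_sub]

omit [DecidableEq S] in
/-- a closed two-cochain which is exact on sorted triangles is exact -/
theorem Z2.ord {V : Set S} {φ : S → S → S → A} (h : Z2 Γ V φ) {η : S → S → A}
    (k : ∀ a ∈ V, ∀ b ∈ V, ∀ c ∈ V, Γ.Adj a b → Γ.Adj a c → Γ.Adj b c → col a < col b →
      col b < col c → φ a b c = η b c - η a c + η a b) :
    ∃ ψ : S → S → A, ∀ a ∈ V, ∀ b ∈ V, ∀ c ∈ V, Cl Γ a b → Cl Γ a c → Cl Γ b c →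
      φ a b c = ψ b c - ψ a c + ψ a b := by
  let ψ : S → S → A := fun a b => if col a < col b then η a b else if col b < col a then
    φ b a b + φ b b b - η b a else φ a a a
  let D : S → S → S → A := fun a b c => φ a b c - (ψ b c - ψ a c + ψ a b)
  have p0 : ∀ a, ψ a a = φ a a a := fun a => by simp [ψ]
  have p1 : ∀ a b, col a < col b → ψ a b = η a b := fun a b l => if_pos l
  have p2 : ∀ a b, col a < col b → ψ b a = φ a b a + φ a a a - η a b := fun a b l => by
    simp [ψ, l, l.not_gt]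
  have hD : Z2 Γ V D := fun a ha b hb c hc d hd h1 h2 h3 h4 h5 h6 => by
    have := h a ha b hb c hc d hd h1 h2 h3 h4 h5 h6
    simp only [D]
    rw [← sub_eq_zero] at this ⊢
    rw [← this]; abel
  have d1 : ∀ a ∈ V, ∀ b ∈ V, Cl Γ a b → D a a b = 0 := fun a ha b hb c => by
    have := h a ha a ha a ha b hb (.refl a) (.refl a) c (.refl a) c c
    simp only [D, p0]
    rw [add_left_cancel this]; abel
  have d2 : ∀ a ∈ V, ∀ b ∈ V, Cl Γ a b → D a b b = 0 := fun a ha b hb c => by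
    have := h a ha b hb b hb b hb c c c (.refl b) (.refl b) (.refl b)
    simp only [D, p0]
    rw [add_right_cancel this]; abel
  have d3 : ∀ a ∈ V, ∀ b ∈ V, Cl Γ a b → D a b a = 0 := fun a ha b hb c => by
    have q : ∀ a b, col a < col b → D a b a = 0 := fun a b l => by
      simp only [D, p0, p1 a b l, p2 a b l]; abel
    rcases lt_or hcol c with rfl | l | l
    · exact d1 a ha a ha c
    · exact q a b l
    · have := hD a ha b hb a ha b hb c (.refl a) c c.symm (.refl b) c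
      rw [q b a l, d2 a ha b hb c, d1 a ha b hb c, zero_add, zero_add] at this
      exact this.symm
  have w1 : ∀ a ∈ V, ∀ b ∈ V, ∀ c ∈ V, Cl Γ a b → Cl Γ a c → Cl Γ b c → D a b c = 0 → D b a c = 0 :=
    fun a ha b hb c hc h1 h2 h3 e => by
      have := hD a ha b hb a ha c hc h1 (.refl a) h2 h1.symm h3 h2
      rwa [e, d1 a ha c hc h2, d3 a ha b hb h1, add_zero, add_zero] at this
  have w2 : ∀ a ∈ V, ∀ b ∈ V, ∀ c ∈ V, Cl Γ a b → Cl Γ a c → Cl Γ b c → D a b c = 0 → D a c b = 0 :=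
    fun a ha b hb c hc h1 h2 h3 e => by
      have := hD a ha b hb c hc b hb h1 h2 h1 h3 (.refl b) h3.symm
      rw [e, d2 a ha b hb h1, d3 b hb c hc h3, add_zero, add_zero] at this
      exact this.symm
  have o : ∀ a ∈ V, ∀ b ∈ V, ∀ c ∈ V, Γ.Adj a b → Γ.Adj a c → Γ.Adj b c → col a < col b →
      col b < col c → D a b c = 0 := fun a ha b hb c hc h1 h2 h3 l1 l2 => by
    simp only [D, p1 _ _ l1, p1 _ _ l2, p1 _ _ (l1.trans l2)]
    exact sub_eq_zero.2 (k a ha b hb c hc h1 h2 h3 l1 l2)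
  refine ⟨ψ, fun a ha b hb c hc h1 h2 h3 => sub_eq_zero.1 (show D a b c = 0 from ?_)⟩
  rcases h1 with rfl | ab
  · exact d1 a ha c hc h2
  rcases h3 with rfl | bc
  · exact d2 a ha b hb (.inr ab)
  rcases h2 with rfl | ac
  · exact d3 a ha b hb (.inr ab)
  rcases lt_or_gt_of_ne (hcol _ _ ab) with p | p <;> rcases lt_or_gt_of_ne (hcol _ _ ac) with q | q <;>
    rcases lt_or_gt_of_ne (hcol _ _ bc) with r | r
  · exact o a ha b hb c hc ab ac bc p r
  · exact w2 a ha c hc b hb (.inr ac) (.inr ab) (.inr bc.symm) (o a ha c hc b hb ac ab bc.symm q r)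
  · exact absurd (p.trans r) q.not_gt
  · exact w2 a ha c hc b hb (.inr ac) (.inr ab) (.inr bc.symm) (w1 c hc a ha b hb (.inr ac.symm)
      (.inr bc.symm) (.inr ab) (o c hc a ha b hb ac.symm bc.symm ab q p))
  · exact w1 b hb a ha c hc (.inr ab.symm) (.inr bc) (.inr ac) (o b hb a ha c hc ab.symm bc ac p q)
  · exact absurd (r.trans p) q.not_gt
  · exact w1 b hb a ha c hc (.inr ab.symm) (.inr bc) (.inr ac) (w2 b hb c hc a ha (.inr bc)
      (.inr ab.symm) (.inr ac.symm) (o b hb c hc a ha bc ab.symm ac.symm r q))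
  · exact w1 b hb a ha c hc (.inr ab.symm) (.inr bc) (.inr ac) (w2 b hb c hc a ha (.inr bc)
      (.inr ab.symm) (.inr ac.symm) (w1 c hc b hb a ha (.inr bc.symm) (.inr ac.symm) (.inr ab.symm)
        (o c hc b hb a ha bc.symm ac.symm ab.symm r p)))

end Crest.Agent.N255.Md

end
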