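import Crest.Agent.N255.Md.Mod

/-!
# Row 255 (helper12): cohomology of convex unions of chambers
-/

set_option autoImplicit false

noncomputable section

namespace Crest.Agent.N255.Md

open Ch

open Classical in
/-- the potential on a rooted tree -/
def pot {Nd Ed A : Type} [AddCommGroup A] {src tgt : Ed → Nd} (R : Ce.Rt src tgt) (k : Ed → A)
    (t : Nd) : A :=
  if h : t = R.o then 0 else pot R k (R.dn (R.par t h).choose) + k (R.par t h).choose
termination_by R.ht t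
decreasing_by have := R.lt (R.par t h).choose; rwa [(R.par t h).choose_spec.1] at this

theorem up_ne {Nd Ed : Type} {src tgt : Ed → Nd} (R : Ce.Rt src tgt) (e : Ed) : R.up e ≠ R.o :=
  fun h => by have := R.lt e; rw [h, R.ht_o] at this; omega

theorem up_inj {Nd Ed : Type} {src tgt : Ed → Nd} (R : Ce.Rt src tgt) {e e' : Ed}
    (h : R.up e = R.up e') : e = e' := (R.par _ (up_ne R e')).unique h rfl

theorem pot_up {Nd Ed A : Type} [AddCommGroup A] {src tgt : Ed → Nd} (R : Ce.Rt src tgt) (k : Ed → A)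
    (e : Ed) : pot R k (R.up e) = pot R k (R.dn e) + k e := by
  rw [pot, dif_neg (up_ne R e), up_inj R (R.par _ (up_ne R e)).choose_spec.1]

variable {S K F Nd Ed : Type} [DecidableEq S] [LinearOrder K] [Group F] [MulAction F Nd]
  [MulAction F Ed] {M : Ce.Mir S K F Nd Ed} {A : Type} [AddCommGroup A]

omit [LinearOrder K] in
variable (M) in
/-- `H¹` of the tree vanishes -/
theorem exists_pot (k : Ed → A) : ∃ c : Nd → A, ∀ e, c (M.tgt e) = c (M.src e) + k e := by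
  classical
  obtain ⟨R, -⟩ := M.root ∅ (by simp)
  refine ⟨pot R fun e => if R.up e = M.tgt e then k e else -k e, fun e => ?_⟩
  have := pot_up R (fun e => if R.up e = M.tgt e then k e else -k e) e
  rcases R.ud e with h | h
  · rw [if_neg (h.1 ▸ src_ne_tgt e e), h.1, h.2] at this
    rw [this, neg_add_cancel_right]
  · rwa [if_pos h.1, h.1, h.2] at this

variable (M) in
/-- the union of the chambers of `N` -/
def Mod (N : Set Nd) : Set S := {a | ∃ n ∈ N, a ∈ M.sp n}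

variable [DecidableEq Ed] (L : Loc M)

/-- a convex set of chambers -/
structure Sub (N : Set Nd) : Prop where
  ty : ∀ n ∈ N, ¬M.ty n
  par : ∀ R : Ce.Rt M.src M.tgt, R.o ∈ N → ∀ e, M.src e ∈ N → R.up e = M.src e → M.src (L.op e) ∈ N

/-- `N` is the set of chambers behind the half edge `e` -/
structure Side (e : Ed) (N : Set Nd) : Prop where
  ty : ∀ n ∈ N, ¬M.ty n
  mem : M.src e ∈ N
  out : M.src (L.op e) ∉ N
  step : ∀ e', e' ≠ e → M.src e' ∈ N → M.src (L.op e') ∈ N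

include L

theorem exists_root {n : Nd} (hn : ¬M.ty n) : ∃ R : Ce.Rt M.src M.tgt, R.o = n := by
  obtain ⟨t, ht, ho⟩ := (L.wal n hn).top ∅ ⟨by simp, by simp, by simp⟩
  have h4 := ((L.wal n hn).o_sup t (by rcases ho with h | h <;> simp [h])).2
  obtain ⟨R, hR⟩ := M.root t ht.1
  have h1 : t ⊆ M.sp R.o := fun s hs => (hR s hs).1
  have q : ∀ e, ¬t ⊆ M.sp (M.tgt e) := fun e h => by
    have := M.dimE e t ht.1 (h.trans (L.wall e)) h; omega
  refine ⟨R, by_contra fun h => ?_⟩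
  by_cases hty : M.ty R.o
  · obtain ⟨e, he⟩ := L.mid _ hty
    exact q e (he ▸ h1)
  · obtain ⟨s, hs⟩ := Finset.card_pos.1 (show 0 < t.card by omega)
    obtain ⟨e, -, -, k⟩ := L.w2 _ _ s hty hn h (h1 hs) (ht.2.2 hs)
    exact q e ((Finset.subset_inter h1 ht.2.2).trans k)

theorem up_or (R : Ce.Rt M.src M.tgt) (ho : ¬M.ty R.o) (e : Ed) :
    (R.up e = M.src e ∧ R.up (L.op e) = M.tgt e ∧ R.ht (M.src (L.op e)) < R.ht (M.src e)) ∨
      (R.up e = M.tgt e ∧ R.up (L.op e) = M.src (L.op e)) := by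
  obtain ⟨e', h, -⟩ := R.par (M.tgt e) fun h => ho (h ▸ M.ty_tgt e)
  have h' : M.tgt e = M.tgt e' := ((R.ud e').resolve_left fun k =>
    src_ne_tgt _ _ (k.1.symm.trans h)).1.symm.trans h |>.symm
  rcases R.ud e with a | a
  · rcases L.tgt_eq e e' h' with rfl | rfl
    · exact absurd (a.1.symm.trans h) (src_ne_tgt _ _)
    · refine .inl ⟨a.1, h, ?_⟩
      have k1 := R.lt e
      have k2 := R.lt (L.op e)
      rw [((R.ud (L.op e)).resolve_left fun k => src_ne_tgt _ _ (k.1.symm.trans h)).2, h] at k2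
      rw [a.1, a.2] at k1
      exact k2.trans k1
  · exact .inr ⟨a.1, ((R.ud (L.op e)).resolve_right fun k =>
      L.op_ne e (up_inj R (k.1.trans ((L.tgt_op e).trans a.1.symm)))).1⟩

/-- induction from the root -/
theorem root_ind (R : Ce.Rt M.src M.tgt) (ho : ¬M.ty R.o) {P : Nd → Prop} (h0 : P R.o)
    (h : ∀ e, R.up e = M.src e → P (M.src (L.op e)) → P (M.src e)) : ∀ n, ¬M.ty n → P n := by
  intro n
  induction k : R.ht n using Nat.strong_induction_on generalizing n with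
  | _ k ih =>
  intro hn
  by_cases q : n = R.o
  · exact q ▸ h0
  obtain ⟨e, rfl, -⟩ := R.par n q
  have a := ((R.ud e).resolve_right fun k => hn (k.1 ▸ M.ty_tgt e)).1
  have b := ((up_or L R ho e).resolve_right fun k => src_ne_tgt _ _ (a.symm.trans k.1)).2.2
  rw [a] at k ⊢
  exact h e a (ih _ (k ▸ b) _ rfl (M.ty_src _))

variable {L} {N : Set Nd}

theorem Side.sub {e : Ed} (h : Side L e N) : Sub L N := ⟨h.ty, fun R ho e' he hu => by
  refine h.step e' (fun k => ?_) he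
  subst k
  have t := h.ty _ ho
  have u := ((up_or L R t e').resolve_right fun k => src_ne_tgt _ _ (hu.symm.trans k.1)).2.1
  refine root_ind L R t (P := fun n => n ∈ N) ho (fun e hu' k => ?_) _ (M.ty_src _) |> h.out
  by_cases q : L.op e = e'
  · rw [← q, L.op_op, hu'] at u
    exact absurd u (src_ne_tgt _ _)
  · simpa only [L.op_op] using h.step _ q k⟩

theorem Side.bd {e e' : Ed} (h : Side L e N) (h1 : M.src e' ∈ N) (h2 : M.src (L.op e') ∉ N) :
    e' = e := by_contra fun k => h2 (h.step e' k h1)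

/-- the other side -/
theorem Side.op {e : Ed} (h : Side L e N) : Side L (L.op e) {n | ¬M.ty n ∧ n ∉ N} :=
  ⟨fun _ k => k.1, ⟨M.ty_src _, h.out⟩, fun k => k.2 (by rw [L.op_op]; exact h.mem), fun e' k q =>
    ⟨M.ty_src _, fun r => q.2 (by
      simpa only [L.op_op] using h.step (L.op e') (fun a => k (by rw [← a, L.op_op])) r)⟩⟩

theorem Side.unique {e : Ed} {N' : Set Nd} (h : Side L e N) (h' : Side L e N') : N = N' := by
  obtain ⟨R, hR⟩ := exists_root L (M.ty_src e)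
  have t : ¬M.ty R.o := hR ▸ M.ty_src e
  have : ∀ n, ¬M.ty n → (n ∈ N ↔ n ∈ N') := root_ind L R t (by rw [hR]; simp [h.mem, h'.mem])
    fun e' _ k => by
      by_cases q : e' = e
      · simp [q, h.mem, h'.mem]
      by_cases q' : L.op e' = e
      · obtain rfl : e' = L.op e := by rw [← q', L.op_op]
        simp [h.out, h'.out]
      exact ⟨fun a => by simpa only [L.op_op] using h'.step _ q' (k.1 (h.step e' q a)),
        fun a => by simpa only [L.op_op] using h.step _ q' (k.2 (h'.step e' q a))⟩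
  exact Set.ext fun n => ⟨fun a => (this n (h.ty n a)).1 a, fun a => (this n (h'.ty n a)).2 a⟩

variable (L) in
theorem exists_side (e : Ed) : ∃ N, Side L e N := by
  classical
  obtain ⟨c, hc⟩ := exists_pot M fun e' => if e' = e then (1 : ZMod 2) else 0
  have k : ∀ e', c (M.src (L.op e')) + (if L.op e' = e then 1 else 0) =
      c (M.src e') + if e' = e then 1 else 0 := fun e' => by rw [← hc, ← hc, L.tgt_op]
  have hne := L.op_ne e
  have k0 := k e
  rw [if_neg hne, if_pos rfl, add_zero] at k0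
  refine ⟨{n | ¬M.ty n ∧ c n = c (M.src e)}, fun _ h => h.1, ⟨M.ty_src e, rfl⟩, fun h => ?_,
    fun e' h h' => ⟨M.ty_src _, ?_⟩⟩
  · simp [h.2] at k0
  · have := k e'
    by_cases q : L.op e' = e
    · rw [q]
    · rwa [if_neg q, if_neg h, add_zero, add_zero, h'.2] at this

variable (L) in
theorem sub_all : Sub L {n | ¬M.ty n} := ⟨fun _ h => h, fun _ _ _ _ _ => M.ty_src _⟩

variable (L) in
theorem sub_one {n : Nd} (hn : ¬M.ty n) : Sub L {n} :=
  ⟨fun _ h => h ▸ hn, fun R ho e he hu => absurd (hu.trans (he.trans ho.symm)) (up_ne R e)⟩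

theorem Sub.inter {N' : Set Nd} (h : Sub L N) (h' : Sub L N') : Sub L (N ∩ N') :=
  ⟨fun n k => h.ty n k.1, fun R ho e he hu => ⟨h.par R ho.1 e he.1 hu, h'.par R ho.2 e he.2 hu⟩⟩

theorem sub_sides {J : Set Ed} {B : Ed → Set Nd} (h : ∀ e ∈ J, Side L e (B e)) :
    Sub L {n | ¬M.ty n ∧ ∀ e ∈ J, n ∈ B e} :=
  ⟨fun _ k => k.1, fun R ho e he hu =>
    ⟨M.ty_src _, fun j hj => (h j hj).sub.par R (ho.2 j hj) e (he.2 j hj) hu⟩⟩

/-- the boundary half edges of an intersection of sides -/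
theorem bd_sides {J : Set Ed} {B : Ed → Set Nd} (h : ∀ e ∈ J, Side L e (B e)) {e : Ed}
    (h1 : M.src e ∈ {n | ¬M.ty n ∧ ∀ e ∈ J, n ∈ B e})
    (h2 : M.src (L.op e) ∉ {n | ¬M.ty n ∧ ∀ e ∈ J, n ∈ B e}) : e ∈ J := by_contra fun k =>
  h2 ⟨M.ty_src _, fun j hj => (h j hj).step e (fun q => k (q ▸ hj)) (h1.2 j hj)⟩

theorem Sub.ind (h : Sub L N) {n0 : Nd} (h0 : n0 ∈ N) {P : Nd → Prop} (p0 : P n0)
    (st : ∀ e, M.src e ∈ N → M.src (L.op e) ∈ N → P (M.src (L.op e)) → P (M.src e)) :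
    ∀ n ∈ N, P n := by
  obtain ⟨R, rfl⟩ := exists_root L (h.ty _ h0)
  exact fun n hn => root_ind L R (h.ty _ h0) (P := fun n => n ∈ N → P n) (fun _ => p0)
    (fun e hu k he => st e he (h.par R h0 e he hu) (k (h.par R h0 e he hu))) n (h.ty n hn) hn

theorem Sub.cv (h : Sub L N) {e e' : Ed} (q : M.src e = M.src e') (h0 : M.src e ∉ N)
    (h1 : M.src (L.op e) ∈ N) (h2 : M.src (L.op e') ∈ N) : e = e' := by
  obtain ⟨R, hR⟩ := exists_root L (h.ty _ h1)
  have k : ∀ j, M.src j ∉ N → M.src (L.op j) ∈ N → R.up j = M.src j := fun j a b =>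
    ((up_or L R (hR ▸ M.ty_src _) j).resolve_right fun c =>
      a (by simpa only [L.op_op] using h.par R (hR ▸ h1) _ b c.2)).1
  exact up_inj R ((k e h0 h1).trans (q.trans (k e' (q ▸ h0) h2).symm))

/-- a clique in `Mod N` lies in one chamber of `N` -/
theorem Sub.full (h : Sub L N) {t : Finset S} (hc : M.Γ.IsClique (t : Set S)) (hne : t.Nonempty)
    (ht : (t : Set S) ⊆ Mod M N) : ∃ n ∈ N, t ⊆ M.sp n := by
  obtain ⟨n, hn, h0⟩ := L.exists_vtx hc
  by_cases k : n ∈ N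
  · exact ⟨n, k, h0⟩
  have : ∀ a ∈ t, ∃ e, M.src e = n ∧ M.src (L.op e) ∈ N ∧ a ∈ M.sp (M.src (L.op e)) := fun a ha => by
    obtain ⟨n', h1, h2⟩ := ht ha
    obtain ⟨e, a1, a2, -⟩ := L.w2 n n' a hn (h.ty _ h1) (fun q => k (q ▸ h1)) (h0 ha) h2
    exact ⟨e, a1, a2 ▸ h1, a2 ▸ h2⟩
  obtain ⟨a, ha⟩ := hne
  obtain ⟨e, a1, a2, -⟩ := this a ha
  refine ⟨_, a2, fun b hb => ?_⟩
  obtain ⟨e', b1, b2, b3⟩ := this b hb
  rwa [h.cv (a1.trans b1.symm) (a1 ▸ k) a2 b2]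

theorem Sub.full2 (h : Sub L N) {a b : S} (ha : a ∈ Mod M N) (hb : b ∈ Mod M N) (c : Cl M.Γ a b) :
    ∃ n ∈ N, a ∈ M.sp n ∧ b ∈ M.sp n := by
  obtain ⟨n, hn, k⟩ := h.full (t := {a, b})
    (by simpa using SimpleGraph.isClique_pair.2 fun q => c.resolve_left q) (by simp)
    (by simpa using Set.pair_subset ha hb)
  exact ⟨n, hn, k (by simp), k (by simp)⟩

omit L [LinearOrder K] [DecidableEq Ed] in
theorem sp_sub {n : Nd} (hn : n ∈ N) : (M.sp n : Set S) ⊆ Mod M N := fun _ h => ⟨n, hn, h⟩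

variable (L) in
theorem wall_op (e : Ed) : M.sp (M.tgt e) ⊆ M.sp (M.src (L.op e)) := L.tgt_op e ▸ L.wall (L.op e)

/-- `Mod` of an intersection of sides, when it has a chamber -/
theorem mod_sides {J : Set Ed} {B : Ed → Set Nd} (h : ∀ e ∈ J, Side L e (B e)) {n0 : Nd}
    (h0 : n0 ∈ {n | ¬M.ty n ∧ ∀ e ∈ J, n ∈ B e}) {a : S} :
    a ∈ Mod M {n | ¬M.ty n ∧ ∀ e ∈ J, n ∈ B e} ↔ ∀ e ∈ J, a ∈ Mod M (B e) := by
  refine ⟨fun ⟨n, h1, h2⟩ e he => ⟨n, h1.2 e he, h2⟩, fun k => ?_⟩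
  obtain ⟨R, rfl⟩ := exists_root L h0.1
  obtain ⟨n, hn, ha⟩ := L.exists_vtx (t0 := {a}) (by simp)
  replace ha : a ∈ M.sp n := ha (by simp)
  revert ha
  refine root_ind L R h0.1 (P := fun n => a ∈ M.sp n → a ∈ Mod M _) (fun ha => ⟨_, h0, ha⟩)
    (fun e hu ih ha => ?_) n hn
  by_cases q : ∀ j ∈ J, M.src e ∈ B j
  · exact ⟨_, ⟨M.ty_src e, q⟩, ha⟩
  push Not at q
  obtain ⟨j, hj, q⟩ := q
  obtain ⟨n', h1, h2⟩ := k j hj
  obtain ⟨e', a1, a2, a3⟩ := L.w2 _ n' a (M.ty_src e) ((h j hj).ty _ h1) (fun r => q (r ▸ h1)) ha h2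
  obtain rfl : e' = e := up_inj R (((up_or L R h0.1 e').resolve_right fun c => q (by
    simpa only [L.op_op, a1] using (h j hj).sub.par R (h0.2 j hj) _ (a2 ▸ h1) c.2)).1.trans
      (a1.trans hu.symm))
  exact ih (a2 ▸ h2)

/-- the two sides of an edge meet in the wall -/
theorem Side.window {e : Ed} {N' : Set Nd} (h : Side L e N) (h' : Side L (L.op e) N') {a : S} :
    a ∈ Mod M N ∧ a ∈ Mod M N' ↔ a ∈ M.sp (M.tgt e) := by
  refine ⟨fun ⟨⟨n, h1, h2⟩, n', h3, h4⟩ => ?_, fun k =>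
    ⟨⟨_, h.mem, L.wall e k⟩, _, h'.mem, wall_op L e k⟩⟩
  rw [h'.unique h.op] at h3
  obtain ⟨e', a1, a2, a3⟩ := L.w2 n n' a (h.ty _ h1) h3.1 (fun r => h3.2 (r ▸ h1)) h2 h4
  rw [← h.bd (a1 ▸ h1) (a2 ▸ h3.2)]
  exact a3 (Finset.mem_inter.2 ⟨h2, h4⟩)

/-- **`Mod N` is connected** -/
theorem h0 (h : Sub L N) {φ : S → A}
    (hφ : ∀ a ∈ Mod M N, ∀ b ∈ Mod M N, M.Γ.Adj a b → φ a = φ b) :
    ∀ a ∈ Mod M N, ∀ b ∈ Mod M N, φ a = φ b := by
  have c : ∀ n ∈ N, ∀ a ∈ M.sp n, ∀ b ∈ M.sp n, φ a = φ b := fun n hn =>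
    c0 L (h.ty n hn) fun a ha b hb => hφ a (sp_sub hn ha) b (sp_sub hn hb)
  rintro a ⟨n, hn, ha⟩ b ⟨n', hn', hb⟩
  refine h.ind hn' (P := fun n => ∀ a ∈ M.sp n, φ a = φ b) (fun a ha => c n' hn' a ha b hb)
    (fun e h1 _ k a ha => ?_) n hn a ha
  obtain ⟨s, hs⟩ := wall_ne L e
  exact (c _ h1 a ha s (L.wall e hs)).trans (k s (wall_op L e hs))

/-- **`H¹ (Mod N)` is detected by the meridians of the boundary walls** -/
theorem h1 (h : Sub L N) {φ : S → S → A} (hφ : Z1 M.Γ (Mod M N) φ)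
    (hp : ∀ e, M.src e ∈ N → M.src (L.op e) ∉ N → p1 M e (L.m e) φ = 0) :
    ∃ η : S → A, ∀ a ∈ Mod M N, ∀ b ∈ Mod M N, Cl M.Γ a b → φ a b = η b - η a := by
  have k : ∀ n ∈ N, ∃ η : S → A, ∀ a ∈ M.sp n, ∀ b ∈ M.sp n, Cl M.Γ a b → φ a b = η b - η a :=
    fun n hn => c1 L (h.ty n hn) (hφ.mono (sp_sub hn)) fun e he => by
      by_cases q : M.src (L.op e) ∈ N
      · have := lon L (L.op e) (hφ.mono (sp_sub q))
        rwa [L.op_op, p1, L.tgt_op] at this
      · exact hp e (he ▸ hn) q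
  choose! η hη using k
  have : ∀ e, ∃ s, s ∈ M.sp (M.tgt e) := wall_ne L
  have : ∀ n, ∃ s, ∀ e, M.tgt e = n → s ∈ M.sp n := fun n => by
    by_cases q : ∃ e, M.tgt e = n
    · obtain ⟨e, rfl⟩ := q
      exact (this e).imp fun s hs _ _ => hs
    · obtain ⟨n0, h0⟩ := L.vtx
      obtain ⟨t, -, ho⟩ := (L.wal n0 h0).top ∅ ⟨by simp, by simp, by simp⟩
      have h4 := ((L.wal n0 h0).o_sup t (by rcases ho with h | h <;> simp [h])).2
      obtain ⟨s, -⟩ := Finset.card_pos.1 (show 0 < t.card by omega)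
      exact ⟨s, fun e he => absurd ⟨e, he⟩ q⟩
  choose pt hpt using this
  obtain ⟨c, hc⟩ := exists_pot M fun e => η (M.src e) (pt (M.tgt e))
  have wd : ∀ n ∈ N, ∀ n' ∈ N, ∀ a ∈ M.sp n, a ∈ M.sp n' → η n a + c n = η n' a + c n' :=
    fun n hn n' hn' a ha ha' => by
      by_cases q : n = n'
      · rw [q]
      obtain ⟨e, rfl, rfl, a3⟩ := L.w2 n n' a (h.ty _ hn) (h.ty _ hn') q ha ha'
      have k1 := t0 L e (φ := fun s => η (M.src e) s - η (M.src (L.op e)) s) (fun s hs t ht c => by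
        rw [sub_eq_sub_iff_sub_eq_sub, ← neg_inj, neg_sub, neg_sub,
          ← hη _ hn s (L.wall e hs) t (L.wall e ht) (.inr c),
          ← hη _ hn' s (wall_op L e hs) t (wall_op L e ht) (.inr c)])
        a (a3 (Finset.mem_inter.2 ⟨ha, ha'⟩)) _ (hpt _ e rfl)
      have k2 := hc (L.op e)
      rw [L.tgt_op, hc e] at k2
      rw [← sub_eq_zero] at k1 k2 ⊢
      rw [← add_zero 0]
      nth_rewrite 1 [← k1]
      rw [← k2]
      abel
  have : Nonempty Nd := ⟨L.vtx.choose⟩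
  have ex : ∀ a ∈ Mod M N, ∃ n, n ∈ N ∧ a ∈ M.sp n := fun _ k => k
  choose! nd hnd using ex
  refine ⟨fun a => η (nd a) a + c (nd a), fun a ha b hb q => ?_⟩
  obtain ⟨n, hn, a1, b1⟩ := h.full2 ha hb q
  dsimp only
  rw [wd _ (hnd a ha).1 n hn a (hnd a ha).2 a1, wd _ (hnd b hb).1 n hn b (hnd b hb).2 b1,
    add_sub_add_right_eq_sub, hη n hn a a1 b b1 q]

/-- span form: `B` contains the boundary half edges, `ξ` is dual to their meridians -/
theorem h1_span (h : Sub L N) {φ : S → S → A} (hφ : Z1 M.Γ (Mod M N) φ) (B : Finset Ed)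
    (hB : ∀ e, M.src e ∈ N → M.src (L.op e) ∉ N → e ∈ B) {ξ : Ed → S → S → ℤ}
    (hξ : ∀ j ∈ B, Z1 M.Γ (Mod M N) (ξ j))
    (hp : ∀ e ∈ B, ∀ j ∈ B, p1 M e (L.m e) (ξ j) = if j = e then 1 else 0) :
    ∃ η : S → A, ∀ a ∈ Mod M N, ∀ b ∈ Mod M N, Cl M.Γ a b →
      φ a b = η b - η a + ∑ j ∈ B, ξ j a b • p1 M j (L.m j) φ := by
  obtain ⟨η, k⟩ := h1 h (hφ.sub_sum hξ fun j => p1 M j (L.m j) φ) fun e h1 h2 => by
    rw [p1_sub_sum, Finset.sum_congr rfl fun j hj => by rw [hp e (hB e h1 h2) j hj]]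
    simp [hB e h1 h2]
  exact ⟨η, fun a ha b hb c => by rw [← k a ha b hb c, sub_add_cancel]⟩

variable (L) in
theorem mod_all : Mod M {n | ¬M.ty n} = Set.univ := Set.eq_univ_of_forall fun a => by
  obtain ⟨n, hn, ha⟩ := L.exists_vtx (t0 := {a}) (by simp)
  exact ⟨n, hn, ha (by simp)⟩

variable (L) in
/-- `H¹ (St) = 0` -/
theorem h1_all {φ : S → S → A} (hφ : Z1 M.Γ Set.univ φ) :
    ∃ η : S → A, ∀ a b, Cl M.Γ a b → φ a b = η b - η a := by
  obtain ⟨η, k⟩ := h1 (sub_all L) (by rwa [mod_all L]) fun e _ h => absurd (M.ty_src _) h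
  rw [mod_all L] at k
  exact ⟨η, fun a b => k a trivial b trivial⟩

end Crest.Agent.N255.Md

end
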